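import Vale.Agent.P052.KyFan

/-! An approximate Lyusternik–Shnirelman theorem for arbitrary colourings of a spherical shell. -/

namespace Vale.Agent.P342

open Vale.Agent.P052

theorem ls {m c : ℕ} (hc : c < m) (col : Eu m → Fin c) {ε : ℝ} (hε : 0 < ε) :
    ∃ u ∈ shell m m, ∃ u' ∈ shell m m, ‖u + u'‖ ≤ ε ∧ col u = col u' := by
  by_contra hcon
  push Not at hcon
  obtain ⟨Z, hZ, -, hk⟩ := kyfan m hε
  have hne : ∀ u ∈ shell m m, col u ≠ col (-u) := fun u hu =>
    hcon u hu (-u) (shell_neg hu) (by simp [hε.le])
  have h1 := hk (fun u => ((min (col u) (col (-u)) : Fin c), decide (col u < col (-u))))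
    (fun u hu => by
      have := hne u hu
      simp only [flp, neg_neg, min_comm, Prod.mk.injEq, true_and]
      rcases lt_or_gt_of_ne this with h | h
      · simp [h, not_lt.2 h.le]
      · simp [h, not_lt.2 h.le])
    (fun u hu u' hu' hd hf => by
      have a := hne u hu
      have b := hne u' hu'
      have c1 := hcon u hu (-u') (shell_neg hu') (by rwa [← sub_eq_add_neg])
      have c2 := hcon (-u) (shell_neg hu) u' hu' (by rwa [neg_add_eq_sub, norm_sub_rev])
      have hf' : min (col u') (col (-u')) = min (col u) (col (-u)) := Fin.ext hf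
      refine Prod.ext hf ?_
      rcases lt_or_gt_of_ne a with h | h <;> rcases lt_or_gt_of_ne b with h' | h'
      · simp [h, h']
      · rw [min_eq_left h.le, min_eq_right h'.le] at hf'
        exact absurd hf'.symm c1
      · rw [min_eq_right h.le, min_eq_left h'.le] at hf'
        exact absurd hf'.symm c2
      · simp [not_lt.2 h.le, not_lt.2 h'.le])
  obtain ⟨l, hl, hne0⟩ := hZ.exists (by rw [h1]; exact one_ne_zero)
  have nd : ((l.map fun u => (((min (col u) (col (-u)) : Fin c) : ℕ),
      decide (col u < col (-u)))).map Prod.fst).Nodup := by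
    by_contra h
    exact hne0 (by simp only [srt, h, if_false])
  have e : (l.map fun u => (((min (col u) (col (-u)) : Fin c) : ℕ),
      decide (col u < col (-u)))).map Prod.fst =
      (l.map fun u => min (col u) (col (-u))).map Fin.val := by
    simp only [List.map_map]; rfl
  rw [e] at nd
  have := (List.Nodup.of_map _ nd).length_le_card
  rw [List.length_map, hl.1, Fintype.card_fin] at this
  omega

end Vale.Agent.P342
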