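import Mathlib

/-! Box smoothing of sup-norm Lipschitz functions on `ℕ^ι`. -/

namespace Vale.Agent.P342

open Finset

variable {ι : Type} [Fintype ι] [DecidableEq ι]

lemma sum_update {A : Type} [Fintype A] (φ : (ι → A) → ℝ) (i : ι) :
    ∑ η : ι → A, ∑ s : A, φ (Function.update η i s) = Fintype.card A * ∑ η, φ η := by
  have inv : Function.Involutive
      (fun p : (ι → A) × A => ((Function.update p.1 i p.2, p.1 i) : (ι → A) × A)) := by
    rintro ⟨η, s⟩
    simp
  have := Equiv.sum_comp inv.toPerm (fun p : (ι → A) × A => φ p.1)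
  rw [Fintype.sum_prod_type, Fintype.sum_prod_type] at this
  simp only [Function.Involutive.coe_toPerm] at this
  rw [this]
  simp [mul_sum]

lemma smooth (f : (ι → ℕ) → ℝ) (l : ℝ) (hl : 0 ≤ l)
    (hf : ∀ (x y : ι → ℕ) (s : ℕ), (∀ i, x i ≤ y i + s ∧ y i ≤ x i + s) → |f x - f y| ≤ l * s)
    (h01 : ∀ x, 0 ≤ f x ∧ f x ≤ 1) (W : ℕ) (hW : Fintype.card ι < W) :
    ∃ G : (ι → ℕ) → ℝ, (∀ x, 0 ≤ G x ∧ G x ≤ 1) ∧ (∀ x, |G x - f x| ≤ l * W) ∧
      ∀ x, ∑ i, |G (Function.update x i (x i + 1)) - G x| ≤ 6 * l := by
  have hW0 : (0 : ℝ) < W := by exact_mod_cast (Nat.zero_le _).trans_lt hW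
  set N : ℝ := (Fintype.card (ι → Fin W) : ℝ) with hN
  have hN0 : 0 < N := by
    have : Nonempty (Fin W) := ⟨⟨0, by omega⟩⟩
    rw [hN]; exact_mod_cast Fintype.card_pos
  set G : (ι → ℕ) → ℝ := fun x => (∑ η : ι → Fin W, f (fun i => x i + η i)) / N with hG
  have avg : ∀ (a : (ι → Fin W) → ℝ) (c : ℝ), (∀ η, |a η| ≤ c) → |(∑ η, a η) / N| ≤ c := by
    intro a c h
    rw [abs_div, abs_of_pos hN0, div_le_iff₀ hN0]
    refine (abs_sum_le_sum_abs _ _).trans ((sum_le_sum fun η _ => h η).trans ?_)
    simp [hN, mul_comm]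
  have lip : ∀ (x y : ι → ℕ), (∀ i, x i ≤ y i + 1 ∧ y i ≤ x i + 1) → |G x - G y| ≤ l := by
    intro x y h
    simp only [hG]
    rw [← sub_div, ← sum_sub_distrib]
    refine avg _ _ fun η => ?_
    have := hf (fun i => x i + η i) (fun i => y i + η i) 1 fun i => by
      have := h i; constructor <;> omega
    simpa using this
  have key : ∀ (x : ι → ℕ) (i : ι), G (Function.update x i (x i + 1)) - G x =
      (∑ η : ι → Fin W, (f (fun j => x j + if j = i then W else (η j : ℕ)) -
        f (fun j => x j + if j = i then 0 else (η j : ℕ))) / W) / N := by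
    intro x i
    simp only [hG]
    rw [← sub_div, ← sum_sub_distrib, ← sum_div]
    congr 1
    rw [eq_div_iff hW0.ne', mul_comm]
    have := sum_update (A := Fin W) (fun η => f (fun j => Function.update x i (x i + 1) j + η j)
      - f (fun j => x j + η j)) i
    rw [Fintype.card_fin] at this
    rw [← this]
    refine sum_congr rfl fun η _ => ?_
    rw [← Finset.sum_range_sub (fun s => f (fun j => x j + if j = i then s else (η j : ℕ))) W,
      ← Fin.sum_univ_eq_sum_range (fun s => f (fun j => x j + if j = i then s + 1 else (η j : ℕ)) -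
        f (fun j => x j + if j = i then s else (η j : ℕ))) W]
    refine sum_congr rfl fun s _ => ?_
    congr 2
    · funext j
      by_cases h : j = i
      · subst h; simp; omega
      · simp [h]
    · funext j
      by_cases h : j = i
      · subst h; simp
      · simp [h]
  have second : ∀ (x y : ι → ℕ) (i : ι), (∀ j, x j ≤ y j + 1 ∧ y j ≤ x j + 1) →
      |(G (Function.update x i (x i + 1)) - G x) - (G (Function.update y i (y i + 1)) - G y)|
        ≤ 2 * l / W := by
    intro x y i h
    rw [key, key, ← sub_div, ← sum_sub_distrib]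
    refine avg _ _ fun η => ?_
    rw [← sub_div, abs_div, abs_of_pos hW0]
    refine div_le_div_of_nonneg_right ?_ hW0.le
    have a := hf (fun j => x j + if j = i then W else (η j : ℕ))
      (fun j => y j + if j = i then W else (η j : ℕ)) 1 fun j => by
      have := h j; constructor <;> omega
    have b := hf (fun j => x j + if j = i then 0 else (η j : ℕ))
      (fun j => y j + if j = i then 0 else (η j : ℕ)) 1 fun j => by
      have := h j; constructor <;> omega
    rw [abs_le] at a b ⊢
    simp only [Nat.cast_one, mul_one] at a b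
    constructor <;> linarith [a.1, a.2, b.1, b.2]
  have tele : ∀ (x : ι → ℕ) (S : Finset ι),
      |G (fun j => x j + if j ∈ S then 1 else 0) - G x -
        ∑ i ∈ S, (G (Function.update x i (x i + 1)) - G x)| ≤ S.card * (2 * l / W) := by
    intro x S
    induction S using Finset.induction_on with
    | empty => simp
    | insert a S ha ih =>
      rw [sum_insert ha, card_insert_of_notMem ha]
      have h2 := second (fun j => x j + if j ∈ S then 1 else 0) x a fun j => by
        constructor <;> split_ifs <;> omega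
      have e : Function.update (fun j => x j + if j ∈ S then 1 else 0) a
          ((x a + if a ∈ S then 1 else 0) + 1) = fun j => x j + if j ∈ insert a S then 1 else 0 := by
        funext j
        by_cases h : j = a
        · subst h; simp [ha]
        · simp [h]
      rw [e] at h2
      rw [abs_le] at h2 ih ⊢
      push_cast
      constructor <;> linarith [h2.1, h2.2, ih.1, ih.2]
  have part : ∀ (x : ι → ℕ) (S : Finset ι),
      |∑ i ∈ S, (G (Function.update x i (x i + 1)) - G x)| ≤ 3 * l := by
    intro x S
    have a := tele x S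
    have b := lip (fun j => x j + if j ∈ S then 1 else 0) x fun j => by
      constructor <;> split_ifs <;> omega
    have c : (S.card : ℝ) * (2 * l / W) ≤ 2 * l := by
      have : (S.card : ℝ) ≤ W := by exact_mod_cast (card_le_univ S).trans hW.le
      calc (S.card : ℝ) * (2 * l / W) ≤ W * (2 * l / W) := by gcongr
        _ = 2 * l := by field_simp
    rw [abs_le] at a b ⊢
    constructor <;> linarith [a.1, a.2, b.1, b.2]
  refine ⟨G, fun x => ⟨?_, ?_⟩, fun x => ?_, fun x => ?_⟩
  · exact div_nonneg (sum_nonneg fun η _ => (h01 _).1) hN0.le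
  · refine (le_abs_self _).trans (avg _ _ fun η => ?_)
    rw [abs_of_nonneg (h01 _).1]; exact (h01 _).2
  · have : G x - f x = (∑ η : ι → Fin W, (f (fun i => x i + η i) - f x)) / N := by
      simp only [hG]
      rw [sum_sub_distrib, sub_div, sum_const, card_univ, nsmul_eq_mul, ← hN]
      field_simp
    rw [this]
    exact avg _ _ fun η => hf _ _ W fun i => by have := (η i).2; constructor <;> omega
  · set δ : ι → ℝ := fun i => G (Function.update x i (x i + 1)) - G x with hδ
    rw [← sum_filter_add_sum_filter_not univ (fun i => 0 ≤ δ i)]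
    have a := part x (univ.filter fun i => 0 ≤ δ i)
    have b := part x (univ.filter fun i => ¬ 0 ≤ δ i)
    have a' : ∑ i ∈ univ.filter (fun i => 0 ≤ δ i), |δ i| =
        ∑ i ∈ univ.filter (fun i => 0 ≤ δ i), δ i :=
      sum_congr rfl fun i hi => abs_of_nonneg (mem_filter.1 hi).2
    have b' : ∑ i ∈ univ.filter (fun i => ¬ 0 ≤ δ i), |δ i| =
        -∑ i ∈ univ.filter (fun i => ¬ 0 ≤ δ i), δ i := by
      rw [← sum_neg_distrib]
      exact sum_congr rfl fun i hi => abs_of_neg (not_le.1 (mem_filter.1 hi).2)
    rw [abs_le] at a b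
    change ∑ i ∈ univ.filter (fun i => 0 ≤ δ i), |δ i| +
      ∑ i ∈ univ.filter (fun i => ¬ 0 ≤ δ i), |δ i| ≤ _
    rw [a', b']
    linarith [a.2, b.1]

end Vale.Agent.P342
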