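import Vale.Agent.P342.Cube
import Vale.Agent.P342.Smooth

/-! A dimension-free junta lemma for bounded sup-norm Lipschitz functions. -/

namespace Vale.Agent.P342

open Finset Vale.Agent.P063

noncomputable section

/-- The random grid point: coordinate `i` is `(top bit)/2 + v (low bits)`. -/
def xi {ι : Type} {t : ℕ} (v : (Fin t → Bool) → ℝ) (ω : ι × Option (Fin t) → Bool) (i : ι) : ℝ :=
  (if ω (i, none) = true then 1 / 2 else 0) + v (fun j => ω (i, some j))

lemma line_tv (g : ℕ → ℝ) {A : Type} [Fintype A] (val : A → ℕ) (Dn : ℕ)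
    (hs : ∀ s < Dn, ∃ α, val α = s) {a b : ℕ} (ha : a < Dn) (hb : b < Dn) :
    |g a - g b| ≤ ∑ α, |g (val α + 1) - g (val α)| := by
  classical
  have h1 : ∀ a b : ℕ, a ≤ b → b < Dn → |g a - g b| ≤ ∑ s ∈ range Dn, |g (s + 1) - g s| := by
    intro a b hab hb
    have := dist_le_Ico_sum_dist g hab
    rw [Real.dist_eq] at this
    refine this.trans ((sum_le_sum fun s _ => ?_).trans
      (sum_le_sum_of_subset_of_nonneg (s := Ico a b) (f := fun s => |g (s + 1) - g s|) ?_
        fun _ _ _ => abs_nonneg _))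
    · rw [Real.dist_eq, abs_sub_comm]
    · intro s hs
      rw [mem_Ico] at hs
      rw [mem_range]; omega
  have h2 : ∑ s ∈ range Dn, |g (s + 1) - g s| ≤ ∑ α, |g (val α + 1) - g (val α)| := by
    calc ∑ s ∈ range Dn, |g (s + 1) - g s| ≤ ∑ s ∈ univ.image val, |g (s + 1) - g s| :=
          sum_le_sum_of_subset_of_nonneg (fun s h => by
            obtain ⟨α, hα⟩ := hs s (mem_range.1 h)
            exact mem_image.2 ⟨α, mem_univ _, hα⟩) fun _ _ _ => abs_nonneg _
      _ ≤ _ := sum_image_le_of_nonneg fun _ _ => abs_nonneg _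
  rcases le_total a b with h | h
  · exact (h1 a b h hb).trans h2
  · rw [abs_sub_comm]; exact (h1 b a h ha).trans h2

theorem junta (L γ : ℝ) (hL : 0 ≤ L) (hγ : 0 < γ) : ∃ (t d : ℕ) (v : (Fin t → Bool) → ℝ),
    (∀ b, 0 ≤ v b ∧ v b ≤ 1 / 2) ∧ ∀ (ι : Type) [Fintype ι] [DecidableEq ι] (F : (ι → ℝ) → ℝ),
    (∀ x, 0 ≤ F x ∧ F x ≤ 1) →
    (∀ (x y : ι → ℝ) (s : ℝ), (∀ i, |x i - y i| ≤ s) → 0 ≤ s → |F x - F y| ≤ L * s) →
    ∃ J : Finset ι, J.card ≤ d ∧ ∃ Φ : (ι × Option (Fin t) → Bool) → ℝ,
      (∀ ω ω', (∀ i ∈ J, ∀ j, ω (i, j) = ω' (i, j)) → Φ ω = Φ ω') ∧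
      Ex (1 / 2) (fun ω => (F (xi v ω) - Φ ω) ^ 2) ≤ γ := by
  obtain ⟨t, ht⟩ := pow_unbounded_of_one_lt (L ^ 2 * 4 / γ) (one_lt_two (α := ℝ))
  obtain ⟨d, hd⟩ := cube_junta (6 * L * (t + 1)) (γ / 4) (by positivity) (by positivity)
  have e : (Fin t → Bool) ≃ Fin (2 ^ t) := Fintype.equivFinOfCardEq (by simp)
  refine ⟨t, d, fun b => (e b : ℕ) / 2 ^ (t + 1), fun b => ⟨by positivity, ?_⟩, ?_⟩
  · have : ((e b : ℕ) : ℝ) ≤ 2 ^ t := by exact_mod_cast (e b).2.le
    rw [div_le_iff₀ (by positivity), pow_succ]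
    linarith
  intro ι _ _ F h01 hF
  set V := Fintype.card ι + 1 with hV
  have hV0 : (0 : ℝ) < V := by positivity
  set Dn := V * 2 ^ (t + 1) with hDn
  have hD0 : (0 : ℝ) < Dn := by positivity
  set f : (ι → ℕ) → ℝ := fun x => F (fun i => x i / Dn) with hf
  have flip : ∀ (x y : ι → ℕ) (s : ℕ), (∀ i, x i ≤ y i + s ∧ y i ≤ x i + s) →
      |f x - f y| ≤ L / Dn * s := by
    intro x y s h
    rw [div_mul_eq_mul_div, mul_div_assoc]
    refine hF _ _ _ (fun i => ?_) (by positivity)
    rw [← sub_div, abs_div, abs_of_pos hD0]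
    refine div_le_div_of_nonneg_right ?_ hD0.le
    have a : (x i : ℝ) ≤ y i + s := by exact_mod_cast (h i).1
    have b : (y i : ℝ) ≤ x i + s := by exact_mod_cast (h i).2
    rw [abs_le]; constructor <;> linarith
  obtain ⟨G, G01, Gf, Gs⟩ := smooth f (L / Dn) (by positivity) flip (fun x => h01 _) V
    (Nat.lt_succ_self _)
  set c : (Option (Fin t) → Bool) → ℕ := fun b =>
    (if b none = true then 2 ^ t else 0) + e (fun j => b (some j)) with hc
  set val : (Option (Fin t) → Bool) × Fin V → ℕ := fun α => V * c α.1 + α.2 with hval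
  have clt : ∀ b, c b < 2 ^ (t + 1) := fun b => by
    have := (e (fun j => b (some j))).2
    simp only [hc, pow_succ]
    split_ifs <;> omega
  have vlt : ∀ α, val α < Dn := fun α => by
    have a := clt α.1
    have b := α.2.2
    calc val α < V * c α.1 + V := by simp only [hval]; omega
      _ = V * (c α.1 + 1) := by ring
      _ ≤ Dn := Nat.mul_le_mul_left _ a
  have vsurj : ∀ s < Dn, ∃ α, val α = s := fun s hs => by
    have hV' : 0 < V := Nat.succ_pos _
    have h1 : s / V < 2 ^ (t + 1) := by rwa [Nat.div_lt_iff_lt_mul hV', mul_comm]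
    obtain ⟨b, hb⟩ : ∃ b, c b = s / V := by
      by_cases h : s / V < 2 ^ t
      · refine ⟨fun o => o.elim false (e.symm ⟨s / V, h⟩), ?_⟩
        simp [hc]
      · refine ⟨fun o => o.elim true (e.symm ⟨s / V - 2 ^ t, by rw [pow_succ] at h1; omega⟩), ?_⟩
        simp [hc]
        omega
    refine ⟨(b, ⟨s % V, Nat.mod_lt _ hV'⟩), ?_⟩
    simp only [hval, hb]
    exact Nat.div_add_mod s V
  set E : (ι → Fin V) × (ι × Option (Fin t) → Bool) ≃ (ι → (Option (Fin t) → Bool) × Fin V) :=
    { toFun := fun p i => (fun j => p.2 (i, j), p.1 i)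
      invFun := fun a => (fun i => (a i).2, fun p => (a p.1).1 p.2)
      left_inv := fun p => rfl
      right_inv := fun a => rfl } with hE
  set H : (ι → Fin V) → (ι × Option (Fin t) → Bool) → ℝ :=
    fun φ ω => G (fun i => val (E (φ, ω) i)) with hH
  set δ : ι → (ι → (Option (Fin t) → Bool) × Fin V) → ℝ := fun i a =>
    |G (Function.update (fun j => val (a j)) i (val (a i) + 1)) - G (fun j => val (a j))| with hδ
  have hD : ∀ φ ω (p : ι × Option (Fin t)), |D p (H φ) ω| ≤
      ∑ α, δ p.1 (Function.update (E (φ, ω)) p.1 α) := by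
    intro φ ω p
    have u : ∀ b, H φ (Function.update ω p b) = G (Function.update (fun j => val (E (φ, ω) j)) p.1
        (val (E (φ, Function.update ω p b) p.1))) := by
      intro b
      simp only [hH]
      congr 1
      funext i
      by_cases h : i = p.1
      · subst h; simp
      · rw [Function.update_of_ne h]
        congr 1
        simp only [hE, Equiv.coe_fn_mk]
        congr 1
        funext j
        rw [Function.update_of_ne]
        rintro rfl
        exact h rfl
    unfold D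
    rw [u, u]
    refine (line_tv (fun s => G (Function.update (fun j => val (E (φ, ω) j)) p.1 s)) val Dn vsurj
      (vlt _) (vlt _)).trans (le_of_eq (sum_congr rfl fun α _ => ?_))
    simp only [hδ]
    have : (fun j => val (Function.update (E (φ, ω)) p.1 α j)) =
        Function.update (fun j => val (E (φ, ω) j)) p.1 (val α) := by
      funext j
      by_cases h : j = p.1
      · subst h; simp
      · simp [h]
    rw [this]
    simp
  have cardA : (Fintype.card ((Option (Fin t) → Bool) × Fin V) : ℝ) = Dn := by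
    simp [hDn, mul_comm]
  have tot : ∑ φ, ∑ p, ∑ ω, |D p (H φ) ω| ≤
      ∑ _φ : ι → Fin V, ∑ _ω : ι × Option (Fin t) → Bool, 6 * L * (t + 1) := by
    calc ∑ φ, ∑ p, ∑ ω, |D p (H φ) ω|
        ≤ ∑ φ, ∑ p : ι × Option (Fin t), ∑ ω, ∑ α, δ p.1 (Function.update (E (φ, ω)) p.1 α) :=
          sum_le_sum fun φ _ => sum_le_sum fun p _ => sum_le_sum fun ω _ => hD φ ω p
      _ = ∑ p : ι × Option (Fin t), ∑ a, ∑ α, δ p.1 (Function.update a p.1 α) := by
          rw [sum_comm]
          refine sum_congr rfl fun p _ => ?_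
          rw [← Fintype.sum_prod_type']
          exact Equiv.sum_comp E (fun a => ∑ α, δ p.1 (Function.update a p.1 α))
      _ = ∑ a, (t + 1) * (Dn * ∑ i, δ i a) := by
          simp only [sum_update, cardA]
          rw [Fintype.sum_prod_type]
          simp only [sum_const, card_univ, Fintype.card_option, Fintype.card_fin, nsmul_eq_mul,
            mul_sum]
          rw [sum_comm]
          push_cast
          rfl
      _ ≤ ∑ _a : ι → (Option (Fin t) → Bool) × Fin V, 6 * L * (t + 1) := by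
          refine sum_le_sum fun a _ => ?_
          have := Gs (fun j => val (a j))
          calc ((t : ℝ) + 1) * (Dn * ∑ i, δ i a) ≤ (t + 1) * (Dn * (6 * (L / Dn))) := by gcongr
            _ = _ := by field_simp
      _ = _ := by
          rw [← Fintype.sum_prod_type']
          exact (Equiv.sum_comp E (fun _ => 6 * L * (t + 1))).symm
  obtain ⟨φ, -, hφ⟩ := exists_le_of_sum_le (univ_nonempty_iff.2 ⟨fun _ => 0⟩) tot
  obtain ⟨J, hJ, Φ, hΦ, hE2⟩ := hd _ (H φ) (fun ω => G01 _) (by
    simp only [Ex_half]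
    rw [← sum_div, div_le_iff₀ (by positivity)]
    refine hφ.trans (le_of_eq ?_)
    simp [mul_comm])
  refine ⟨J.image Prod.fst, card_image_le.trans hJ, Φ,
    fun ω ω' h => hΦ _ _ fun p hp => h p.1 (mem_image_of_mem _ hp) p.2, ?_⟩
  have close : ∀ ω, |F (xi (fun b => (e b : ℕ) / 2 ^ (t + 1)) ω) - H φ ω| ≤ L / 2 ^ t := by
    intro ω
    have a : F (xi (fun b => (e b : ℕ) / 2 ^ (t + 1)) ω) =
        f (fun i => V * c (fun j => ω (i, j))) := by
      simp only [hf]
      congr 1
      funext i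
      simp only [xi, hc, hDn]
      split_ifs
      · push_cast; field_simp; ring
      · push_cast; field_simp; ring
    have b := flip (fun i => V * c (fun j => ω (i, j))) (fun i => val (E (φ, ω) i)) V fun i => by
      have := (φ i).2
      simp only [hval, hE, Equiv.coe_fn_mk]
      constructor <;> omega
    have b2 := Gf (fun i => val (E (φ, ω) i))
    have b3 : L / Dn * V = L / 2 ^ t / 2 := by
      simp only [hDn]; push_cast; field_simp; ring
    rw [a]
    simp only [hH]
    rw [b3, abs_le] at b b2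
    rw [abs_le]
    constructor <;> linarith [b.1, b.2, b2.1, b2.2]
  have small : (L / 2 ^ t) ^ 2 ≤ γ / 4 := by
    rw [div_lt_iff₀ hγ] at ht
    have h1 : (1 : ℝ) ≤ 2 ^ t := one_le_pow₀ (by norm_num)
    rw [div_pow, div_le_iff₀ (by positivity)]
    nlinarith [mul_le_mul_of_nonneg_left h1 (by positivity : (0 : ℝ) ≤ 2 ^ t * γ)]
  calc _ ≤ Ex (1 / 2) (fun ω => γ / 2 + 2 * (H φ ω - Φ ω) ^ 2) := by
        refine Ex_mono h0.le h1.le fun ω => ?_
        have a := close ω
        have b := sq_le_sq' (abs_le.1 a).1 (abs_le.1 a).2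
        nlinarith [sq_nonneg (F (xi (fun b => (e b : ℕ) / 2 ^ (t + 1)) ω) - H φ ω -
          (H φ ω - Φ ω))]
    _ ≤ γ := by
        rw [Ex_add, Ex_const, Ex_const_mul]
        linarith

end

end Vale.Agent.P342
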