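import Vale.Agent.P342.Lists
import Vale.Agent.P342.Junta

/-! The interpolating family of random functions used in the soundness proof. -/

namespace Vale.Agent.P342

open Finset

noncomputable section

variable {r M : ℕ} {X E : Type}

/-- The view `J` of an edge tuple: left endpoint where `J i`, right endpoint elsewhere. -/
def view (lv rv : E → ℕ) (e : Fin r → E) (J : Fin r → Bool) : Fin r → Bool × ℕ :=
  fun i => (J i, if J i = true then lv (e i) else rv (e i))

/-- Projection of a tuple of left labels to the view `J`. -/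
def prj (π : E → X → X) (e : Fin r → E) (J : Fin r → Bool) (x : Fin r → X) : Fin r → X :=
  fun i => if J i = true then x i else π (e i) (x i)

def res (π : E → X → X) (e : Fin r → E) (J I : Fin r → Bool) (x : Fin r → X) : Fin r → X :=
  fun i => if J i = true ∧ I i = false then π (e i) (x i) else x i

def bb (β : Bool) (k : Fin (M + 1)) : ℝ :=
  if β = true then min 1 (2 * ((k : ℕ) / M)) else min 1 (2 * (1 - (k : ℕ) / M))

def amp (k : Fin r → Fin (M + 1)) (I : Fin r → Bool) : ℝ := ∏ i, bb (I i) (k i)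

def JJ (k : Fin r → Fin (M + 1)) : Fin r → Bool := fun i => decide (k i ≠ 0)

def I0 (k : Fin r → Fin (M + 1)) : Fin r → Bool := fun i => decide (M ≤ 2 * (k i : ℕ))

def GG (π : E → X → X) (e : Fin r → E) (k : Fin r → Fin (M + 1))
    (ξ : (Fin r → Bool) × (Fin r → X) → ℝ) (l : Fin r → X) : ℝ :=
  ∑ I, amp k I * ξ (I, res π e (JJ k) I l)

lemma bb01 (hM : 0 < M) (β : Bool) (k : Fin (M + 1)) : 0 ≤ bb β k ∧ bb β k ≤ 1 := by
  have hM' : (0 : ℝ) < M := by exact_mod_cast hM
  have h : ((k : ℕ) : ℝ) / M ≤ 1 := by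
    rw [div_le_one hM']; exact_mod_cast Nat.lt_succ_iff.1 k.2
  unfold bb
  split_ifs
  · exact ⟨le_min zero_le_one (by positivity), min_le_left _ _⟩
  · exact ⟨le_min zero_le_one (by linarith), min_le_left _ _⟩

lemma amp01 (hM : 0 < M) (k : Fin r → Fin (M + 1)) (I : Fin r → Bool) :
    0 ≤ amp k I ∧ amp k I ≤ 1 :=
  ⟨prod_nonneg fun _ _ => (bb01 hM _ _).1,
    prod_le_one (fun _ _ => (bb01 hM _ _).1) fun _ _ => (bb01 hM _ _).2⟩

lemma amp_zero {k : Fin r → Fin (M + 1)} {I : Fin r → Bool} {i : Fin r} (hk : k i = 0)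
    (hI : I i = true) : amp k I = 0 :=
  prod_eq_zero (mem_univ i) (by simp [bb, hk, hI])

lemma amp_last (hM : 0 < M) {k : Fin r → Fin (M + 1)} {I : Fin r → Bool} {i : Fin r}
    (hk : k i = Fin.last M) (hI : I i = false) : amp k I = 0 :=
  prod_eq_zero (mem_univ i) (by
    have hM' : (M : ℝ) ≠ 0 := by exact_mod_cast hM.ne'
    simp [bb, hk, hI, div_self hM'])

lemma amp_I0 (hM : 0 < M) (k : Fin r → Fin (M + 1)) : amp k (I0 k) = 1 := by
  have hM' : (0 : ℝ) < M := by exact_mod_cast hM
  refine prod_eq_one fun i _ => ?_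
  unfold bb I0
  by_cases h : M ≤ 2 * (k i : ℕ)
  · have h' : (M : ℝ) ≤ 2 * (k i : ℕ) := by exact_mod_cast h
    rw [if_pos (by simpa using h), min_eq_left]
    rw [← mul_div_assoc, le_div_iff₀ hM']; linarith
  · have h' : 2 * ((k i : ℕ) : ℝ) ≤ M := by exact_mod_cast (not_le.1 h).le
    rw [if_neg (by simpa using h), min_eq_left]
    have : ((k i : ℕ) : ℝ) / M ≤ 1 / 2 := by rw [div_le_iff₀ hM']; linarith
    linarith

lemma bb_lip (hM : 0 < M) (β : Bool) {k k' : Fin (M + 1)}
    (h : |((k : ℕ) : ℝ) - (k' : ℕ)| ≤ 1) : |bb β k - bb β k'| ≤ 2 / M := by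
  have hM' : (0 : ℝ) < M := by exact_mod_cast hM
  have h2 : |((k : ℕ) : ℝ) / M - (k' : ℕ) / M| ≤ 1 / M := by
    rw [← sub_div, abs_div, abs_of_pos hM']
    exact div_le_div_of_nonneg_right h hM'.le
  have e : (2 : ℝ) / M = 2 * (1 / M) := by ring
  rw [e]
  rw [abs_le] at h2
  unfold bb
  split_ifs
  · refine (abs_min_sub_min_le_max _ _ _ _).trans (max_le (by simp) ?_)
    rw [abs_le]; constructor <;> linarith [h2.1, h2.2]
  · refine (abs_min_sub_min_le_max _ _ _ _).trans (max_le (by simp) ?_)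
    rw [abs_le]; constructor <;> linarith [h2.1, h2.2]

lemma amp_lip (hM : 0 < M) {k k' : Fin r → Fin (M + 1)}
    (h : ∀ i, |((k i : ℕ) : ℝ) - (k' i : ℕ)| ≤ 1) (I : Fin r → Bool) :
    |amp k I - amp k' I| ≤ r * (2 / M) := by
  refine (abs_prod_sub _ _ _ (fun _ => bb01 hM _ _) fun _ => bb01 hM _ _).trans ?_
  refine (sum_le_sum fun i _ => bb_lip hM (I i) (h i)).trans (le_of_eq ?_)
  simp

lemma GG_lip (hM : 0 < M) (π : E → X → X) (e : Fin r → E) (k : Fin r → Fin (M + 1))
    {ξ ξ' : (Fin r → Bool) × (Fin r → X) → ℝ} {s : ℝ} (h : ∀ i, |ξ i - ξ' i| ≤ s)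
    (l : Fin r → X) : |GG π e k ξ l - GG π e k ξ' l| ≤ 2 ^ r * s := by
  unfold GG
  rw [← sum_sub_distrib]
  refine (abs_sum_le_sum_abs _ _).trans ((sum_le_sum (g := fun _ => s) fun I _ => ?_).trans
    (le_of_eq (by simp)))
  rw [← mul_sub, abs_mul, abs_of_nonneg (amp01 hM k I).1]
  exact (mul_le_of_le_one_left (abs_nonneg _) (amp01 hM k I).2).trans (h _)

lemma GG_last (hM : 0 < M) (π : E → X → X) (e : Fin r → E) {k : Fin r → Fin (M + 1)}
    {m : Fin r} (hk : k m = Fin.last M) (α β : E) :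
    GG π (Function.update e m α) k = GG π (Function.update e m β) k := by
  funext ξ l
  refine sum_congr rfl fun I _ => ?_
  by_cases h : I m = false
  · simp [amp_last hM hk h]
  · congr 3
    funext i
    by_cases hi : i = m
    · subst hi; simp [res, h]
    · simp [res, hi]

lemma GG_zero (π : E → X → X) (e : Fin r → E) {k : Fin r → Fin (M + 1)}
    {m : Fin r} (hk : k m = 0) (α β : E) :
    GG π (Function.update e m α) k = GG π (Function.update e m β) k := by
  funext ξ l
  refine sum_congr rfl fun I _ => ?_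
  congr 3
  funext i
  by_cases hi : i = m
  · subst hi; simp [res, JJ, hk]
  · simp [res, hi]

lemma view_last (hM : 0 < M) (lv rv : E → ℕ) (e : Fin r → E) {k : Fin r → Fin (M + 1)}
    {m : Fin r} (hk : k m = Fin.last M) {α β : E} (h : lv α = lv β) :
    view lv rv (Function.update e m α) (JJ k) = view lv rv (Function.update e m β) (JJ k) := by
  funext i
  by_cases hi : i = m
  · subst hi
    have : Fin.last M ≠ 0 := by
      intro h0; have := congrArg Fin.val h0; simp at this; omega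
    simp [view, JJ, hk, h, this]
  · simp [view, hi]

lemma view_zero (lv rv : E → ℕ) (e : Fin r → E) {k : Fin r → Fin (M + 1)}
    {m : Fin r} (hk : k m = 0) {α β : E} (h : rv α = rv β) :
    view lv rv (Function.update e m α) (JJ k) = view lv rv (Function.update e m β) (JJ k) := by
  funext i
  by_cases hi : i = m
  · subst hi
    simp [view, JJ, hk, h]
  · simp [view, hi]

lemma GG_prj (π : E → X → X) (e : Fin r → E) (k : Fin r → Fin (M + 1))
    (ξ : (Fin r → Bool) × (Fin r → X) → ℝ) (x : Fin r → X) :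
    GG π e k ξ (prj π e (JJ k) x) = ∑ I, amp k I * ξ (I, prj π e I x) := by
  refine sum_congr rfl fun I _ => ?_
  by_cases h : ∃ i, k i = 0 ∧ I i = true
  · obtain ⟨i, h1, h2⟩ := h
    simp [amp_zero h1 h2]
  · congr 3
    funext i
    have hi : ¬ (k i = 0 ∧ I i = true) := fun h' => h ⟨i, h'⟩
    by_cases h1 : k i = 0 <;> cases h2 : I i <;> simp_all [res, prj, JJ]

/-- The coarse (right) label tuple of a label tuple of view `I`. -/
def yy (π : E → X → X) (e : Fin r → E) (I : Fin r → Bool) (l : Fin r → X) : Fin r → X :=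
  fun i => if I i = true then π (e i) (l i) else l i

lemma yy_prj (π : E → X → X) (e : Fin r → E) (I : Fin r → Bool) (x : Fin r → X) :
    yy π e I (prj π e I x) = fun i => π (e i) (x i) := by
  funext i
  cases h : I i <;> simp [yy, prj, h]

/-- Flip the top bits of the coordinates `(I, l)` with `p l`. -/
def fl {t : ℕ} (I : Fin r → Bool) (p : (Fin r → X) → Bool)
    (ω : ((Fin r → Bool) × (Fin r → X)) × Option (Fin t) → Bool) :
    ((Fin r → Bool) × (Fin r → X)) × Option (Fin t) → Bool :=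
  fun z => if z.2 = none ∧ z.1.1 = I ∧ p z.1.2 = true then !ω z else ω z

lemma fl_inv {t : ℕ} (I : Fin r → Bool) (p : (Fin r → X) → Bool) :
    Function.Involutive (fl (t := t) I p) := by
  intro ω
  funext z
  unfold fl
  split_ifs <;> simp

lemma GG_fl (hM : 0 < M) {t : ℕ} (v : (Fin t → Bool) → ℝ) (π : E → X → X) (e : Fin r → E)
    (k : Fin r → Fin (M + 1)) (p : (Fin r → X) → Bool)
    (ω : ((Fin r → Bool) × (Fin r → X)) × Option (Fin t) → Bool) (x : Fin r → X) :
    ∃ σ : ℝ, |σ| = 1 / 2 ∧ GG π e k (xi v (fl (I0 k) p ω)) (prj π e (JJ k) x) =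
      ∑ I, amp k I * xi v ω (I, prj π e I x) +
        if p (prj π e (I0 k) x) = true then σ else 0 := by
  refine ⟨if ω ((I0 k, prj π e (I0 k) x), none) = true then -(1 / 2) else 1 / 2, ?_, ?_⟩
  · split_ifs <;> norm_num
  rw [GG_prj, ← sub_eq_iff_eq_add', ← sum_sub_distrib, sum_eq_single (I0 k)]
  · rw [amp_I0 hM]
    simp only [xi, fl, one_mul, true_and, reduceCtorEq, false_and, if_false]
    cases p (prj π e (I0 k) x) <;> cases ω ((I0 k, prj π e (I0 k) x), none) <;> norm_num
  · intro I _ hI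
    simp [xi, fl, hI]
  · simp

end

end Vale.Agent.P342
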