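import Vale.Agent.P063.Cube

/-! Friedgut's junta theorem for bounded real functions with bounded total `L¹` influence. -/

namespace Vale.Agent.P342

open Finset Vale.Agent.P063

noncomputable section

variable {κ : Type} [Fintype κ] [DecidableEq κ]

lemma h0 : (0 : ℝ) < 1 / 2 := by norm_num
lemma h1 : (1 / 2 : ℝ) < 1 := by norm_num

lemma Ex_half (g : (κ → Bool) → ℝ) :
    Ex (1 / 2) g = (∑ x, g x) / 2 ^ Fintype.card κ := by
  unfold Ex
  rw [sum_div]
  refine sum_congr rfl fun x _ => ?_
  have : wt (1 / 2) x = (1 / 2) ^ Fintype.card κ := by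
    unfold wt
    rw [prod_congr rfl (g := fun _ => (1 / 2 : ℝ)) fun i _ => by
      unfold cw; split_ifs <;> norm_num]
    simp
  rw [this, one_div, inv_pow]
  ring

lemma low_part (h : (κ → Bool) → ℝ) (hh : ∀ x, |h x| ≤ 1) (l : ℕ) {lam τ : ℝ} (hl : 0 < lam)
    (hτ : Ex (1 / 2) (fun x => |h x|) ≤ τ) :
    ∑ T, (if T.card + 1 ≤ l then 1 else 0) * W (1 / 2) h T
      ≤ Ex (1 / 2) (fun x => |h x|) * (lam + (4 ^ l) ^ 2 * τ / lam ^ 3) := by
  set I := Ex (1 / 2) (fun x => |h x|) with hIdef
  set L := ∑ T, (if T.card + 1 ≤ l then 1 else 0) * W (1 / 2) h T with hL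
  have hI0 : 0 ≤ I := Ex_nonneg h0.le h1.le fun _ => abs_nonneg _
  have hL0 : 0 ≤ L := sum_nonneg fun T _ =>
    mul_nonneg (by split_ifs <;> norm_num) (W_nonneg h0 h1 h T)
  set b : Finset κ → ℝ := fun T => if T.card + 1 ≤ l then coef (1 / 2) h T else 0 with hb
  set g : (κ → Bool) → ℝ := fun x => ∑ T, b T * chi (1 / 2) T x with hg
  have e1 : Ex (1 / 2) (fun x => h x * g x) = L := by
    have := Ex_parseval (p := 1 / 2) (coef (1 / 2) h) b
    simp only [← expansion h0 h1 h] at this
    rw [hL]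
    refine this.trans (sum_congr rfl fun T _ => ?_)
    simp only [hb, W]
    split_ifs <;> ring
  have e2 : ∑ T, b T ^ 2 ≤ 4 ^ l * L := by
    rw [hL, mul_sum]
    refine sum_le_sum fun T _ => ?_
    simp only [hb, W]
    split_ifs with hT
    · have h2 : (1 : ℝ) ≤ 4 ^ l * (1 / 2 * (1 - 1 / 2)) ^ T.card := by
        have : (1 / 2 * (1 - 1 / 2) : ℝ) ^ l ≤ (1 / 2 * (1 - 1 / 2)) ^ T.card :=
          pow_le_pow_of_le_one (by norm_num) (by norm_num) (by omega)
        refine le_trans ?_ (mul_le_mul_of_nonneg_left this (by positivity))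
        rw [← mul_pow]; norm_num
      nlinarith [mul_le_mul_of_nonneg_left h2 (sq_nonneg (coef (1 / 2) h T))]
    · simp
  have e3 : Ex (1 / 2) (fun x => g x ^ 4) ≤ (4 ^ l * L) ^ 2 :=
    (hyper h0 h1 b).trans (pow_le_pow_left₀ (sum_nonneg fun _ _ => sq_nonneg _) e2 2)
  have e4 : L ≤ I := by
    calc L ≤ ∑ T, W (1 / 2) h T := sum_le_sum fun T _ => by
          have := W_nonneg h0 h1 h T
          split_ifs <;> linarith
      _ = Ex (1 / 2) (fun x => h x ^ 2) := sum_W h0 h1 h
      _ ≤ I := Ex_mono h0.le h1.le fun x => by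
          have := hh x
          rw [← sq_abs]
          nlinarith [abs_nonneg (h x)]
  have e5 : L ≤ lam * I + (1 / lam ^ 3) * Ex (1 / 2) (fun x => g x ^ 4) := by
    rw [← e1, hIdef, ← Ex_const_mul, ← Ex_const_mul, ← Ex_add]
    refine Ex_mono h0.le h1.le fun x => ?_
    have a1 : h x * g x ≤ |h x| * |g x| := by rw [← abs_mul]; exact le_abs_self _
    have a2 : g x ^ 4 = |g x| ^ 4 := by rw [pow_abs, abs_of_nonneg (by positivity)]
    have a3 := hh x
    have a4 := abs_nonneg (h x)
    have a5 := abs_nonneg (g x)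
    rw [a2]
    rcases le_total |g x| lam with c | c
    · have : 0 ≤ 1 / lam ^ 3 * |g x| ^ 4 := by positivity
      nlinarith
    · have a6 : lam ^ 3 ≤ |g x| ^ 3 := pow_le_pow_left₀ hl.le c 3
      have a7 : |g x| ≤ 1 / lam ^ 3 * |g x| ^ 4 := by
        rw [one_div, ← div_eq_inv_mul, le_div_iff₀ (by positivity)]
        nlinarith
      have : 0 ≤ lam * |h x| := by positivity
      nlinarith
  have e6 : (4 ^ l * L) ^ 2 ≤ (4 ^ l) ^ 2 * (I * τ) := by
    rw [mul_pow]
    refine mul_le_mul_of_nonneg_left ?_ (by positivity)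
    nlinarith
  calc L ≤ lam * I + (1 / lam ^ 3) * ((4 ^ l) ^ 2 * (I * τ)) :=
        e5.trans (by gcongr; exact e3.trans e6)
    _ = _ := by ring

theorem cube_junta (Λ γ : ℝ) (hΛ : 0 ≤ Λ) (hγ : 0 < γ) : ∃ d : ℕ, ∀ (κ : Type) [Fintype κ]
    [DecidableEq κ] (H : (κ → Bool) → ℝ), (∀ x, 0 ≤ H x ∧ H x ≤ 1) →
    ∑ j, Ex (1 / 2) (fun x => |D j H x|) ≤ Λ →
    ∃ J : Finset κ, J.card ≤ d ∧ ∃ Φ : (κ → Bool) → ℝ,
      (∀ x y, (∀ j ∈ J, x j = y j) → Φ x = Φ y) ∧
      Ex (1 / 2) (fun x => (H x - Φ x) ^ 2) ≤ γ := by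
  obtain ⟨l, hl⟩ := exists_nat_gt (Λ / γ)
  have hl0 : (0 : ℝ) < l := lt_of_le_of_lt (by positivity) hl
  set lam : ℝ := γ / (4 * (Λ + 1)) with hlam
  have hlam0 : 0 < lam := by positivity
  set τ : ℝ := lam ^ 4 / (4 ^ l) ^ 2 with hτ
  have hτ0 : 0 < τ := by positivity
  refine ⟨⌈Λ / τ⌉₊, fun κ _ _ H hH hsum => ?_⟩
  set I : κ → ℝ := fun j => Ex (1 / 2) (fun x => |D j H x|) with hI
  have hI0 : ∀ j, 0 ≤ I j := fun j => Ex_nonneg h0.le h1.le fun _ => abs_nonneg _
  have hD : ∀ j x, |D j H x| ≤ 1 := fun j x => by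
    unfold D
    have a := hH (Function.update x j true)
    have b := hH (Function.update x j false)
    rw [abs_le]; constructor <;> linarith [a.1, a.2, b.1, b.2]
  set J := univ.filter fun j => τ < I j with hJ
  refine ⟨J, ?_, fun x => ∑ S, (if S ⊆ J then coef (1 / 2) H S else 0) * chi (1 / 2) S x,
    fun x y hxy => ?_, ?_⟩
  · have : (J.card : ℝ) * τ ≤ Λ := by
      calc (J.card : ℝ) * τ = ∑ _j ∈ J, τ := by simp
        _ ≤ ∑ j ∈ J, I j := sum_le_sum fun j hj => (mem_filter.1 hj).2.le
        _ ≤ ∑ j, I j := sum_le_sum_of_subset_of_nonneg (subset_univ _) fun j _ _ => hI0 j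
        _ ≤ Λ := hsum
    have h2 : (J.card : ℝ) ≤ Λ / τ := by rwa [le_div_iff₀ hτ0]
    exact_mod_cast h2.trans (Nat.le_ceil _)
  · refine sum_congr rfl fun S _ => ?_
    split_ifs with hS
    · unfold chi
      rw [prod_congr rfl fun j hj => by rw [hxy j (hS hj)]]
    · simp
  · have e : (fun x => (H x - ∑ S, (if S ⊆ J then coef (1 / 2) H S else 0) * chi (1 / 2) S x) ^ 2)
        = fun x => (∑ S, (if S ⊆ J then 0 else coef (1 / 2) H S) * chi (1 / 2) S x) *
          (∑ S, (if S ⊆ J then 0 else coef (1 / 2) H S) * chi (1 / 2) S x) := by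
      funext x
      rw [← sq, expansion h0 h1 H x, ← sum_sub_distrib]
      congr 1
      refine sum_congr rfl fun S _ => ?_
      split_ifs <;> ring
    rw [e, Ex_parseval]
    have hi : ∀ j ∈ univ.filter (fun j => ¬ τ < I j),
        ∑ S, (if j ∈ S then (if S.card ≤ l then 1 else 0) * W (1 / 2) H S else 0)
          ≤ I j * (2 * lam) := by
      intro j hj
      rw [← sum_W_D h0 h1 H j (fun c => if c ≤ l then 1 else 0)]
      have h5 := low_part (D j H) (hD j) l hlam0 (τ := τ) (not_lt.1 (mem_filter.1 hj).2)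
      have h6 : lam + (4 ^ l) ^ 2 * τ / lam ^ 3 = 2 * lam := by
        rw [hτ]; field_simp; norm_num
      rw [h6] at h5
      have := mul_nonneg (hI0 j) hlam0.le
      change _ ≤ I j * (2 * lam) at h5
      nlinarith
    have htot : ∑ S, (S.card : ℝ) * W (1 / 2) H S ≤ Λ / 4 := by
      rw [← sum_W_tot h0 h1]
      have : tot (1 / 2) H ≤ Λ := by
        refine le_trans (sum_le_sum fun j _ => ?_) hsum
        refine Ex_mono h0.le h1.le fun x => ?_
        have := hD j x
        rw [← sq_abs]
        nlinarith [abs_nonneg (D j H x)]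
      linarith
    calc ∑ S, (if S ⊆ J then 0 else coef (1 / 2) H S) * (if S ⊆ J then 0 else coef (1 / 2) H S) *
          (1 / 2 * (1 - 1 / 2)) ^ S.card
        ≤ ∑ S, ((1 / l) * ((S.card : ℝ) * W (1 / 2) H S) + ∑ j ∈ univ.filter (fun j => ¬ τ < I j),
            (if j ∈ S then (if S.card ≤ l then 1 else 0) * W (1 / 2) H S else 0)) := by
          refine sum_le_sum fun S _ => ?_
          have hW := W_nonneg h0 h1 H S
          have n1 : 0 ≤ (1 / l) * ((S.card : ℝ) * W (1 / 2) H S) := by positivity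
          have n2 : ∀ j, 0 ≤ (if j ∈ S then (if S.card ≤ l then 1 else 0) * W (1 / 2) H S
              else 0) := fun j => by
            split_ifs
            · rw [one_mul]; exact hW
            · rw [zero_mul]
            · exact le_rfl
          by_cases hS : S ⊆ J
          · simp only [hS, if_true, zero_mul]
            exact add_nonneg n1 (sum_nonneg fun j _ => n2 j)
          · simp only [hS, if_false]
            have eW : coef (1 / 2) H S * coef (1 / 2) H S * (1 / 2 * (1 - 1 / 2)) ^ S.card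
                = W (1 / 2) H S := by unfold W; ring
            rw [eW]
            by_cases hc : S.card ≤ l
            · obtain ⟨j, hjS, hjJ⟩ := not_subset.1 hS
              have hj : j ∈ univ.filter (fun j => ¬ τ < I j) := by
                simpa [hJ] using hjJ
              have := single_le_sum (f := fun j => if j ∈ S then
                (if S.card ≤ l then 1 else 0) * W (1 / 2) H S else 0) (fun j _ => n2 j) hj
              simp only [hjS, hc, if_true, one_mul] at this ⊢
              linarith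
            · have c1 : (l : ℝ) ≤ S.card := by exact_mod_cast (not_le.1 hc).le
              have c2 : W (1 / 2) H S ≤ (1 / l) * ((S.card : ℝ) * W (1 / 2) H S) := by
                rw [div_mul_eq_mul_div, one_mul, le_div_iff₀ hl0]
                nlinarith
              exact c2.trans (le_add_of_nonneg_right (sum_nonneg fun j _ => n2 j))
      _ = (1 / l) * ∑ S, (S.card : ℝ) * W (1 / 2) H S + ∑ j ∈ univ.filter (fun j => ¬ τ < I j),
            ∑ S, (if j ∈ S then (if S.card ≤ l then 1 else 0) * W (1 / 2) H S else 0) := by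
          rw [sum_add_distrib, ← mul_sum, sum_comm]
      _ ≤ (1 / l) * (Λ / 4) + ∑ j, I j * (2 * lam) := by
          refine add_le_add (mul_le_mul_of_nonneg_left htot (by positivity)) ?_
          exact (sum_le_sum hi).trans (sum_le_sum_of_subset_of_nonneg (subset_univ _)
            fun j _ _ => mul_nonneg (hI0 j) (by positivity))
      _ ≤ γ := by
          rw [← sum_mul]
          have a1 : (1 / l) * (Λ / 4) ≤ γ / 4 := by
            rw [div_lt_iff₀ hγ] at hl
            rw [div_mul_eq_mul_div, one_mul, div_le_iff₀ hl0]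
            nlinarith
          have a2 : (∑ j, I j) * (2 * lam) ≤ Λ * (2 * lam) :=
            mul_le_mul_of_nonneg_right hsum (by positivity)
          have a3 : Λ * (2 * lam) ≤ γ / 2 := by
            have : Λ * (2 * lam) = γ / 2 * (Λ / (Λ + 1)) := by rw [hlam]; field_simp; ring
            rw [this]
            exact mul_le_of_le_one_right (by positivity) ((div_le_one (by positivity)).2 (by linarith))
          linarith

end

end Vale.Agent.P342
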