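import Mathlib

/-! Graphs given by Boolean adjacency tables. -/

namespace Vale.Agent.P342

/-- The simple graph on the row indices of a Boolean table `A`: distinct `u`, `v` are adjacent
iff the entry `(u, v)` or the entry `(v, u)` is `true`. -/
def toGraph (A : List (List Bool)) : SimpleGraph (Fin A.length) :=
  SimpleGraph.fromRel fun u v => (A.getD u []).getD v false = true

end Vale.Agent.P342
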