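import Vale.Agent.P342.Smooth

/-! List decoding for label cover and small analytic lemmas. -/

namespace Vale.Agent.P342

open Finset

lemma enum_finset {X : Type} [Inhabited X] (s : Finset X) (K : ℕ) (h : s.card ≤ K) :
    ∃ g : Fin K → X, ∀ a ∈ s, ∃ i, g i = a := by
  refine ⟨fun i => s.toList.getD i default, fun a ha => ?_⟩
  obtain ⟨n, hn, e⟩ := List.getElem_of_mem (mem_toList.2 ha)
  refine ⟨⟨n, by rw [length_toList] at hn; omega⟩, ?_⟩
  simp [List.getD, List.getElem?_eq_getElem hn, e]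

lemma enum_dep {X E : Type} [Inhabited X] (lv : E → ℕ) (T : E → Finset X) (K : ℕ)
    (h : ∀ α, (T α).card ≤ K) (hT : ∀ α β, lv α = lv β → T α = T β) :
    ∃ A : Fin K → ℕ → X, ∀ α, ∀ a ∈ T α, ∃ i, A i (lv α) = a := by
  classical
  have : ∀ u, ∃ g : Fin K → X, ∀ α, lv α = u → ∀ a ∈ T α, ∃ i, g i = a := by
    intro u
    by_cases hu : ∃ α, lv α = u
    · obtain ⟨α, hα⟩ := hu
      obtain ⟨g, hg⟩ := enum_finset (T α) K (h α)
      exact ⟨g, fun β hβ a ha => hg a (hT β α (hβ.trans hα.symm) ▸ ha)⟩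
    · exact ⟨fun _ => default, fun α hα => absurd ⟨α, hα⟩ hu⟩
  choose g hg using this
  exact ⟨fun i u => g u i, fun α a ha => hg (lv α) α rfl a ha⟩

lemma listdec {X E : Type} [Inhabited X] [DecidableEq X] [Fintype E] (lv rv : E → ℕ)
    (π : E → X → X) (ε : ℝ)
    (hv : ∀ A B : ℕ → X, ((univ.filter fun e => π e (A (lv e)) = B (rv e)).card : ℝ)
      ≤ ε * Fintype.card E)
    (T B : E → Finset X) (K : ℕ) (hT : ∀ α, (T α).card ≤ K) (hB : ∀ α, (B α).card ≤ K)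
    (dT : ∀ α β, lv α = lv β → T α = T β) (dB : ∀ α β, rv α = rv β → B α = B β) :
    ∑ α, (if ∃ a ∈ T α, π α a ∈ B α then (1 : ℝ) else 0) ≤ K ^ 2 * ε * Fintype.card E := by
  obtain ⟨A, hA⟩ := enum_dep lv T K hT dT
  obtain ⟨A', hA'⟩ := enum_dep rv B K hB dB
  calc ∑ α, (if ∃ a ∈ T α, π α a ∈ B α then (1 : ℝ) else 0)
      ≤ ∑ α, ∑ p : Fin K × Fin K,
        (if π α (A p.1 (lv α)) = A' p.2 (rv α) then (1 : ℝ) else 0) := by
        refine sum_le_sum fun α _ => ?_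
        have nn : ∀ p : Fin K × Fin K,
            0 ≤ (if π α (A p.1 (lv α)) = A' p.2 (rv α) then (1 : ℝ) else 0) := fun p => by
          split_ifs <;> norm_num
        split_ifs with h
        · obtain ⟨a, ha, hb⟩ := h
          obtain ⟨i, hi⟩ := hA α a ha
          obtain ⟨j, hj⟩ := hA' α _ hb
          refine le_trans ?_ (single_le_sum (fun p _ => nn p) (mem_univ (i, j)))
          simp [hi, hj]
        · exact sum_nonneg fun p _ => nn p
    _ ≤ ∑ _p : Fin K × Fin K, ε * Fintype.card E := by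
        rw [sum_comm]
        refine sum_le_sum fun p _ => ?_
        rw [sum_boole]
        exact hv _ _
    _ = _ := by simp; ring

lemma good_tuple {X E : Type} [Inhabited X] [DecidableEq X] [Fintype E] [Nonempty E] {r : ℕ}
    (lv rv : E → ℕ) (π : E → X → X) (ε : ℝ)
    (hv : ∀ A B : ℕ → X, ((univ.filter fun e => π e (A (lv e)) = B (rv e)).card : ℝ)
      ≤ ε * Fintype.card E)
    (T B : Fin r → (Fin r → E) → Finset X) (K : ℕ) (hε : r * (K ^ 2 * ε) < 1)
    (hT : ∀ m e, (T m e).card ≤ K) (hB : ∀ m e, (B m e).card ≤ K)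
    (dT : ∀ m e α β, lv α = lv β → T m (Function.update e m α) = T m (Function.update e m β))
    (dB : ∀ m e α β, rv α = rv β → B m (Function.update e m α) = B m (Function.update e m β)) :
    ∃ e : Fin r → E, ∀ m, ∀ a ∈ T m e, π (e m) a ∉ B m e := by
  have hE : (0 : ℝ) < Fintype.card E := by exact_mod_cast Fintype.card_pos
  have h1 : ∀ m, ∑ e : Fin r → E, (if ∃ a ∈ T m e, π (e m) a ∈ B m e then (1 : ℝ) else 0)
      ≤ ∑ _e : Fin r → E, K ^ 2 * ε := by
    intro m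
    refine le_of_mul_le_mul_left ?_ hE
    rw [← sum_update (fun e => if ∃ a ∈ T m e, π (e m) a ∈ B m e then (1 : ℝ) else 0) m, mul_sum]
    refine sum_le_sum fun e _ => ?_
    have := listdec lv rv π ε hv (fun α => T m (Function.update e m α))
      (fun α => B m (Function.update e m α)) K (fun _ => hT _ _) (fun _ => hB _ _) (dT m e) (dB m e)
    simp only [Function.update_self]
    linarith
  have h2 : ∑ e : Fin r → E, ∑ m, (if ∃ a ∈ T m e, π (e m) a ∈ B m e then (1 : ℝ) else 0)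
      ≤ ∑ _e : Fin r → E, r * (K ^ 2 * ε) := by
    rw [sum_comm]
    refine (sum_le_sum fun m _ => h1 m).trans (le_of_eq ?_)
    simp; ring
  obtain ⟨e, -, he⟩ := exists_le_of_sum_le univ_nonempty h2
  refine ⟨e, fun m a ha hb => ?_⟩
  have := single_le_sum (f := fun m => if ∃ a ∈ T m e, π (e m) a ∈ B m e then (1 : ℝ) else 0)
    (fun m _ => by split_ifs <;> norm_num) (mem_univ m)
  rw [if_pos ⟨a, ha, hb⟩] at this
  linarith

/-- The third of the circle `ℝ/ℤ` containing `x`. -/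
noncomputable def arc (x : ℝ) : Fin 3 := ⟨(⌊3 * x⌋ % 3).toNat, by omega⟩

lemma arc_ne {x y : ℝ} (h1 : 1 / 3 < |x - y|) (h2 : |x - y| < 2 / 3) : arc x ≠ arc y := by
  have key : ∀ x y : ℝ, 1 / 3 < x - y → x - y < 2 / 3 → arc x ≠ arc y := by
    intro x y h1 h2 h
    have e : (⌊3 * x⌋ % 3).toNat = (⌊3 * y⌋ % 3).toNat := congrArg Fin.val h
    have a1 := Int.floor_le (3 * x)
    have a2 := Int.lt_floor_add_one (3 * x)
    have a3 := Int.floor_le (3 * y)
    have a4 := Int.lt_floor_add_one (3 * y)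
    have b1 : ⌊3 * y⌋ < ⌊3 * x⌋ := by
      have : (⌊3 * y⌋ : ℝ) < ⌊3 * x⌋ := by linarith
      exact_mod_cast this
    have b2 : ⌊3 * x⌋ < ⌊3 * y⌋ + 3 := by
      have : (⌊3 * x⌋ : ℝ) < ⌊3 * y⌋ + 3 := by linarith
      exact_mod_cast this
    omega
  rcases le_total 0 (x - y) with h | h
  · rw [abs_of_nonneg h] at h1 h2
    exact key x y h1 h2
  · rw [abs_of_nonpos h] at h1 h2
    exact (key y x (by linarith) (by linarith)).symm

lemma abs_prod_sub {ι : Type} (s : Finset ι) (f g : ι → ℝ) (hf : ∀ i, 0 ≤ f i ∧ f i ≤ 1)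
    (hg : ∀ i, 0 ≤ g i ∧ g i ≤ 1) : |∏ i ∈ s, f i - ∏ i ∈ s, g i| ≤ ∑ i ∈ s, |f i - g i| := by
  classical
  induction s using Finset.induction_on with
  | empty => simp
  | insert a s ha ih =>
    rw [prod_insert ha, prod_insert ha, sum_insert ha]
    have p0 : 0 ≤ ∏ i ∈ s, g i := prod_nonneg fun i _ => (hg i).1
    have p1 : ∏ i ∈ s, g i ≤ 1 := prod_le_one (fun i _ => (hg i).1) fun i _ => (hg i).2
    have e : f a * ∏ i ∈ s, f i - g a * ∏ i ∈ s, g i =
        f a * (∏ i ∈ s, f i - ∏ i ∈ s, g i) + (f a - g a) * ∏ i ∈ s, g i := by ring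
    rw [e]
    refine (abs_add_le _ _).trans ?_
    rw [abs_mul, abs_mul, abs_of_nonneg (hf a).1, abs_of_nonneg p0]
    nlinarith [(hf a).1, (hf a).2, abs_nonneg (f a - g a),
      abs_nonneg (∏ i ∈ s, f i - ∏ i ∈ s, g i)]

/-- Rounding of `|z_j|` to the grid. -/
lemma rounding (M : ℕ) {μ : ℝ} (hμ : 0 < μ) : ∃ kk : ℝ → Fin (M + 1),
    (∀ x, x ≤ μ / 2 → kk x = 0) ∧ (∀ x, μ ≤ x → kk x = Fin.last M) ∧
    ∀ x y, |x - y| * M ≤ μ / 2 → |((kk x : ℕ) : ℝ) - (kk y : ℕ)| ≤ 1 := by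
  refine ⟨fun x => ⟨min M ⌊M * (2 * x / μ - 1)⌋₊, by omega⟩, fun x hx => ?_, fun x hx => ?_,
    fun x y h => ?_⟩
  · have : ⌊M * (2 * x / μ - 1)⌋₊ = 0 := by
      refine Nat.floor_of_nonpos (mul_nonpos_of_nonneg_of_nonpos (by positivity) ?_)
      rw [sub_nonpos, div_le_one hμ]; linarith
    ext; simp [this]
  · have : M ≤ ⌊M * (2 * x / μ - 1)⌋₊ := by
      refine Nat.le_floor (le_mul_of_one_le_right (by positivity) ?_)
      rw [le_sub_iff_add_le, le_div_iff₀ hμ]; linarith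
    ext; simp [this]
  · have key : ∀ a b : ℝ, a ≤ b + 1 → ⌊a⌋₊ ≤ ⌊b⌋₊ + 1 := by
      intro a b hab
      rcases le_total 0 b with hb | hb
      · rw [← Nat.floor_add_one hb]; exact Nat.floor_mono hab
      · have : ⌊a⌋₊ ≤ ⌊(1 : ℝ)⌋₊ := Nat.floor_mono (by linarith)
        rw [Nat.floor_one] at this
        omega
    have d : |M * (2 * x / μ - 1) - M * (2 * y / μ - 1)| ≤ 1 := by
      have : M * (2 * x / μ - 1) - M * (2 * y / μ - 1) = (x - y) * M / (μ / 2) := by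
        field_simp; ring
      rw [this, abs_div, abs_mul, abs_of_pos (half_pos hμ), div_le_one (half_pos hμ),
        Nat.abs_cast]
      exact h
    rw [abs_le] at d
    have a := key _ _ (show M * (2 * x / μ - 1) ≤ M * (2 * y / μ - 1) + 1 by linarith [d.2])
    have b := key _ _ (show M * (2 * y / μ - 1) ≤ M * (2 * x / μ - 1) + 1 by linarith [d.1])
    have a' : min M ⌊M * (2 * x / μ - 1)⌋₊ ≤ min M ⌊M * (2 * y / μ - 1)⌋₊ + 1 := by omega
    have b' : min M ⌊M * (2 * y / μ - 1)⌋₊ ≤ min M ⌊M * (2 * x / μ - 1)⌋₊ + 1 := by omega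
    have a'' : ((min M ⌊M * (2 * x / μ - 1)⌋₊ : ℕ) : ℝ) ≤
      (min M ⌊M * (2 * y / μ - 1)⌋₊ : ℕ) + 1 := by exact_mod_cast a'
    have b'' : ((min M ⌊M * (2 * y / μ - 1)⌋₊ : ℕ) : ℝ) ≤
      (min M ⌊M * (2 * x / μ - 1)⌋₊ : ℕ) + 1 := by exact_mod_cast b'
    rw [abs_le]
    constructor <;> simp only <;> linarith

end Vale.Agent.P342
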