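import Vale.Agent.P342.Amp
import Vale.Agent.P342.LS

/-! Soundness: a proper `c`-colouring of the long-code graph decodes to a good labelling. -/

namespace Vale.Agent.P342

open Finset Vale.Agent.P063 Vale.Agent.P052

noncomputable section

variable {r M c : ℕ} {X E : Type} [Fintype X]

def SS (col : (Fin r → Bool × ℕ) → ((Fin r → X) → Fin 3) → Fin c) (w : Fin r → Bool × ℕ)
    (a : Fin c) : Set ((Fin r → X) → ℝ) := {g | col w (fun l => arc (g l)) = a}

def FF (col : (Fin r → Bool × ℕ) → ((Fin r → X) → Fin 3) → Fin c) (w : Fin r → Bool × ℕ)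
    (G : ((Fin r → Bool) × (Fin r → X) → ℝ) → (Fin r → X) → ℝ) (a : Fin c)
    (ξ : (Fin r → Bool) × (Fin r → X) → ℝ) : ℝ :=
  max 0 (1 - 20 * Metric.infDist (G ξ) (SS col w a))

lemma FF01 (col : (Fin r → Bool × ℕ) → ((Fin r → X) → Fin 3) → Fin c) (w G a ξ) :
    0 ≤ FF col w G a ξ ∧ FF col w G a ξ ≤ 1 :=
  ⟨le_max_left _ _, max_le zero_le_one (by
    linarith [Metric.infDist_nonneg (x := G ξ) (s := SS col w a)])⟩

lemma FF_lip (hM : 0 < M) (col : (Fin r → Bool × ℕ) → ((Fin r → X) → Fin 3) → Fin c) (w)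
    (π : E → X → X) (e : Fin r → E) (k : Fin r → Fin (M + 1)) (a : Fin c)
    (ξ ξ' : (Fin r → Bool) × (Fin r → X) → ℝ) (s : ℝ) (h : ∀ i, |ξ i - ξ' i| ≤ s) (hs : 0 ≤ s) :
    |FF col w (GG π e k) a ξ - FF col w (GG π e k) a ξ'| ≤ 20 * 2 ^ r * s := by
  have d : dist (GG π e k ξ) (GG π e k ξ') ≤ 2 ^ r * s :=
    (dist_pi_le_iff (by positivity)).2 fun l => by
      rw [Real.dist_eq]; exact GG_lip hM π e k h l
  have a1 := Metric.infDist_le_infDist_add_dist (x := GG π e k ξ) (y := GG π e k ξ')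
    (s := SS col w a)
  have a2 := Metric.infDist_le_infDist_add_dist (x := GG π e k ξ') (y := GG π e k ξ)
    (s := SS col w a)
  rw [dist_comm] at a2
  unfold FF
  refine (abs_max_sub_max_le_max _ _ _ _).trans (max_le (by simp; positivity) ?_)
  rw [abs_le]
  constructor <;> linarith

lemma big_coord {m : ℕ} {z : Eu m} (hz : z ∈ shell m m) (hm : 0 < m) :
    ∃ j, (1 / 2 : ℝ) ^ m / m ≤ |z j| := by
  by_contra h
  push Not at h
  have hm' : (1 : ℝ) ≤ m := by exact_mod_cast hm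
  have h1 : ‖z‖ ^ 2 < ((1 / 2 : ℝ) ^ m) ^ 2 := by
    rw [EuclideanSpace.real_norm_sq_eq]
    have : Nonempty (Fin m) := ⟨⟨0, hm⟩⟩
    calc ∑ i, z i ^ 2 < ∑ _i : Fin m, ((1 / 2 : ℝ) ^ m / m) ^ 2 :=
          sum_lt_sum_of_nonempty univ_nonempty fun i _ => by
            rw [← sq_abs]
            exact pow_lt_pow_left₀ (h i) (abs_nonneg _) two_ne_zero
      _ = ((1 / 2 : ℝ) ^ m) ^ 2 / m := by simp; field_simp
      _ ≤ _ := div_le_self (by positivity) hm'
  exact absurd (pow_le_pow_left₀ (by positivity) hz.1 2) (not_le.2 h1)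

lemma tau_exists {Y : Type} (S : Fin c → Y → Prop) : ∃ τ : Y → Fin (c + 1),
    (∀ y m, τ y = m.succ → S m y) ∧ ∀ y, τ y = 0 → ∀ m, ¬ S m y := by
  have : ∀ y, ∃ j : Fin (c + 1), (∀ m : Fin c, j = m.succ → S m y) ∧ (j = 0 → ∀ m, ¬ S m y) := by
    intro y
    by_cases h : ∃ m, S m y
    · obtain ⟨m, hm⟩ := h
      exact ⟨m.succ, fun m' h => Fin.succ_inj.1 h ▸ hm, fun h => absurd h (Fin.succ_ne_zero m)⟩
    · exact ⟨0, fun m' h => absurd h.symm (Fin.succ_ne_zero m'), fun _ m hm => h ⟨m, hm⟩⟩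
  choose τ h1 h2 using this
  exact ⟨τ, h1, h2⟩

lemma pick_omega {Q κ : Type} [Fintype Q] [Fintype κ] [DecidableEq κ]
    (sh : Q → (κ → Bool) → (κ → Bool)) (hsh : ∀ q, Function.Involutive (sh q))
    (err : Q → (κ → Bool) → ℝ)
    (h : ∀ q, Ex (1 / 2) (fun ω => err q ω ^ 2) ≤ 1 / (16 * (Fintype.card Q + 1))) :
    ∃ ω, ∀ q, |err q (sh q ω)| < 1 / 4 := by
  have h1 : ∑ ω, ∑ q, err q (sh q ω) ^ 2 ≤
      ∑ _ω : κ → Bool, ∑ _q : Q, 1 / (16 * ((Fintype.card Q : ℝ) + 1)) := by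
    rw [sum_comm, sum_comm (s := (univ : Finset (κ → Bool)))]
    refine sum_le_sum fun q _ => ?_
    have a := h q
    rw [Ex_half, div_le_iff₀ (by positivity)] at a
    have b := Equiv.sum_comp (hsh q).toPerm (fun ω => err q ω ^ 2)
    refine (le_of_eq b).trans (a.trans (le_of_eq ?_))
    simp [mul_comm]
  obtain ⟨ω, -, hω⟩ := exists_le_of_sum_le univ_nonempty h1
  refine ⟨ω, fun q => ?_⟩
  have a := single_le_sum (f := fun q => err q (sh q ω) ^ 2) (fun _ _ => sq_nonneg _) (mem_univ q)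
  have b : ∑ _q : Q, 1 / (16 * ((Fintype.card Q : ℝ) + 1)) < (1 / 4) ^ 2 := by
    rw [sum_const, card_univ, nsmul_eq_mul, mul_one_div, div_lt_iff₀ (by positivity)]; linarith
  exact abs_lt_of_sq_lt_sq ((a.trans hω).trans_lt b) (by norm_num)

lemma final_arc {g A A' σ σ' : ℝ} (b : Bool) (hσ : |σ| = 1 / 2) (hσ' : |σ'| = 1 / 2)
    (d1 : |A + (if (!b) = true then σ else 0) - g| < 1 / 20) (d2 : |A - A'| ≤ 1 / 10) :
    arc g ≠ arc (A' + if b = true then σ' else 0) := by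
  rw [abs_lt] at d1
  rw [abs_le] at d2
  obtain ⟨d1, d1'⟩ := d1
  obtain ⟨d2, d2'⟩ := d2
  rcases (abs_eq (by norm_num)).1 hσ with rfl | rfl <;>
  rcases (abs_eq (by norm_num)).1 hσ' with rfl | rfl <;>
  cases b <;>
  simp only [Bool.not_false, Bool.not_true, if_true, Bool.false_eq_true, if_false] at d1 d1' ⊢ <;>
  refine arc_ne ?_ ?_ <;>
  first
  | (rw [lt_abs]; left; linarith)
  | (rw [lt_abs]; right; linarith)
  | (rw [abs_lt]; constructor <;> linarith)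

/-- The shifted random point. -/
def pt {t : ℕ} (π : E → X → X) (e : Fin r → E) (τ : (Fin r → X) → Fin (r + 1))
    (k : Fin r → Fin (M + 1)) (α : Fin (r + 1) → Bool) :=
  fl (t := t) (I0 k) (fun l => α (τ (yy π e (I0 k) l)))

lemma topo {t : ℕ} (hMd : M = 20 * (c + 1) * 2 ^ c) (v : (Fin t → Bool) → ℝ)
    (hv : ∀ b, 0 ≤ v b ∧ v b ≤ 1 / 2) (lv rv : E → ℕ) (π : E → X → X) (e : Fin c → E)
    (col : (Fin c → Bool × ℕ) → ((Fin c → X) → Fin 3) → Fin c)
    (τ : (Fin c → X) → Fin (c + 1)) (ω : ((Fin c → Bool) × (Fin c → X)) × Option (Fin t) → Bool)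
    (H : ∀ (k : Fin c → Fin (M + 1)) (a : Fin c) (α α' : Fin (c + 1) → Bool),
      (∀ j, (j = 0 ∧ ∃ m, k m = Fin.last M) ∨ (∃ m : Fin c, j = m.succ ∧ k m = 0) ∨ α j = α' j) →
      FF col (view lv rv e (JJ k)) (GG π e k) a (xi v (pt π e τ k α ω)) = 1 →
      0 < FF col (view lv rv e (JJ k)) (GG π e k) a (xi v (pt π e τ k α' ω))) :
    ∃ (J J' : Fin c → Bool) (χ χ' : (Fin c → X) → Fin 3),
      (∀ x, χ (prj π e J x) ≠ χ' (prj π e J' x)) ∧
        col (view lv rv e J) χ = col (view lv rv e J') χ' := by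
  have hM : 0 < M := by rw [hMd]; positivity
  have hM' : (0 : ℝ) < M := by exact_mod_cast hM
  obtain ⟨μ, hμ⟩ : ∃ μ : ℝ, μ = (1 / 2) ^ (c + 1) / ((c + 1 : ℕ) : ℝ) := ⟨_, rfl⟩
  have hμ0 : 0 < μ := by rw [hμ]; positivity
  obtain ⟨kk, kk0, kk1, kkl⟩ := rounding M hμ0
  obtain ⟨kz, hkz⟩ : ∃ kz : Eu (c + 1) → Fin c → Fin (M + 1), ∀ z m, kz z m = kk |z m.succ| :=
    ⟨_, fun _ _ => rfl⟩
  obtain ⟨az, haz⟩ : ∃ az : Eu (c + 1) → Fin (c + 1) → Bool, ∀ z j, az z j = decide (z j < 0) :=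
    ⟨_, fun _ _ => rfl⟩
  obtain ⟨z, hz, z', -, hzz, hcol⟩ := ls (m := c + 1) (Nat.lt_succ_self c)
    (fun z => col (view lv rv e (JJ (kz z)))
      (fun l => arc (GG π e (kz z) (xi v (pt π e τ (kz z) (az z) ω)) l)))
    (ε := μ / 2 / M) (by positivity)
  have hco : ∀ j, |z j + z' j| ≤ μ / 2 / M := fun j =>
    le_trans (by simpa using PiLp.norm_apply_le (z + z') j) hzz
  have hsm : μ / 2 / M ≤ μ / 2 := div_le_self (by positivity) (by exact_mod_cast hM)
  set a := col (view lv rv e (JJ (kz z)))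
      (fun l => arc (GG π e (kz z) (xi v (pt π e τ (kz z) (az z) ω)) l)) with ha
  have mem : GG π e (kz z) (xi v (pt π e τ (kz z) (az z) ω)) ∈
      SS col (view lv rv e (JJ (kz z))) a := rfl
  have F2 := H (kz z) a (az z) (fun j => !az z' j) (fun j => by
      by_cases hj : |z j| ≤ μ / 2
      · rcases Fin.eq_zero_or_eq_succ j with rfl | ⟨m, rfl⟩
        · obtain ⟨j, hj'⟩ := big_coord hz (Nat.succ_pos c)
          rw [← hμ] at hj'
          rcases Fin.eq_zero_or_eq_succ j with rfl | ⟨m, rfl⟩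
          · linarith
          · exact Or.inl ⟨rfl, m, by rw [hkz, kk1 _ hj']⟩
        · exact Or.inr (Or.inl ⟨m, rfl, by rw [hkz, kk0 _ hj]⟩)
      · refine Or.inr (Or.inr ?_)
        have b2 := hco j
        rw [abs_le] at b2
        rw [haz, haz]
        rcases lt_abs.1 (not_le.1 hj) with h | h
        · rw [decide_eq_false (by linarith), decide_eq_true (by linarith [b2.2])]; rfl
        · rw [decide_eq_true (by linarith), decide_eq_false (by linarith [b2.1])]; rfl)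
    (by unfold FF; rw [Metric.infDist_zero_of_mem mem]; norm_num)
  have F3 : Metric.infDist (GG π e (kz z) (xi v (pt π e τ (kz z) (fun j => !az z' j) ω)))
      (SS col (view lv rv e (JJ (kz z))) a) < 1 / 20 := by
    simp only [FF, lt_max_iff, lt_irrefl, false_or] at F2
    linarith
  obtain ⟨g, hg, hd⟩ := (Metric.infDist_lt_iff ⟨_, mem⟩).1 F3
  refine ⟨JJ (kz z), JJ (kz z'), fun l => arc (g l),
    fun l => arc (GG π e (kz z') (xi v (pt π e τ (kz z') (az z') ω)) l), fun x => ?_,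
    hg.trans hcol⟩
  have d1 := (dist_le_pi_dist _ _ (prj π e (JJ (kz z)) x)).trans_lt hd
  obtain ⟨σ, hσ, e1⟩ := GG_fl hM v π e (kz z)
    (fun l => !az z' (τ (yy π e (I0 (kz z)) l))) ω x
  obtain ⟨σ', hσ', e2⟩ := GG_fl hM v π e (kz z')
    (fun l => az z' (τ (yy π e (I0 (kz z')) l))) ω x
  rw [yy_prj] at e1 e2
  have d2 : |∑ I, amp (kz z) I * xi v ω (I, prj π e I x) -
      ∑ I, amp (kz z') I * xi v ω (I, prj π e I x)| ≤ 1 / 10 := by
    rw [← sum_sub_distrib]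
    refine (abs_sum_le_sum_abs _ _).trans ((sum_le_sum (g := fun _ => c * (2 / (M : ℝ)))
      fun I _ => ?_).trans ?_)
    · rw [← sub_mul, abs_mul]
      have x1 : |xi v ω (I, prj π e I x)| ≤ 1 := by
        have := hv (fun j => ω ((I, prj π e I x), some j))
        unfold xi
        rw [abs_le]
        split_ifs <;> constructor <;> linarith [this.1, this.2]
      refine (mul_le_of_le_one_right (abs_nonneg _) x1).trans (amp_lip hM (fun i => ?_) I)
      rw [hkz, hkz]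
      refine kkl _ _ ?_
      rw [← le_div_iff₀ hM']
      refine le_trans ?_ (hco i.succ)
      simpa using abs_abs_sub_abs_le_abs_sub (z i.succ) (-z' i.succ)
    · simp only [sum_const, card_univ, Fintype.card_fun, Fintype.card_bool, Fintype.card_fin,
        nsmul_eq_mul, hMd]
      push_cast
      rw [← mul_div_assoc, ← mul_div_assoc, div_le_iff₀ (by positivity)]
      nlinarith [(by positivity : (0 : ℝ) < 2 ^ c)]
  unfold pt at d1 ⊢
  rw [Real.dist_eq, e1] at d1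
  beta_reduce
  rw [e2]
  exact final_arc _ hσ hσ' d1 d2

theorem sound (c : ℕ) : ∃ ε : ℝ, 0 < ε ∧ ∀ (X E : Type) [Fintype X] [DecidableEq X] [Inhabited X]
    [Fintype E] [Nonempty E] (lv rv : E → ℕ) (π : E → X → X),
    (∀ A B : ℕ → X, ((univ.filter fun e => π e (A (lv e)) = B (rv e)).card : ℝ)
      ≤ ε * Fintype.card E) →
    ∀ col : (Fin c → Bool × ℕ) → ((Fin c → X) → Fin 3) → Fin c,
      ∃ (e : Fin c → E) (J J' : Fin c → Bool) (χ χ' : (Fin c → X) → Fin 3),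
        (∀ x, χ (prj π e J x) ≠ χ' (prj π e J' x)) ∧
          col (view lv rv e J) χ = col (view lv rv e J') χ' := by
  obtain ⟨M, hMd⟩ : ∃ M : ℕ, M = 20 * (c + 1) * 2 ^ c := ⟨_, rfl⟩
  have hM : 0 < M := by rw [hMd]; positivity
  obtain ⟨t, d, v, hv, hj⟩ := junta (20 * 2 ^ c) (1 / (16 * (Fintype.card
    (((Fin c → Fin (M + 1)) × Fin c) × (Fin (c + 1) → Bool)) + 1))) (by positivity)
    (by positivity)
  obtain ⟨K, hK⟩ : ∃ K : ℕ, K = Fintype.card ((Fin c → Fin (M + 1)) × Fin c) * d := ⟨_, rfl⟩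
  refine ⟨1 / (c * K ^ 2 + 1), by positivity, ?_⟩
  intro X E _ _ _ _ _ lv rv π hval col
  choose! jun hcard Φ hΦ hE using hj ((Fin c → Bool) × (Fin c → X))
  obtain ⟨F, hF⟩ : ∃ F : (Fin c → E) → (Fin c → Fin (M + 1)) × Fin c →
      ((Fin c → Bool) × (Fin c → X) → ℝ) → ℝ,
      ∀ e p, F e p = FF col (view lv rv e (JJ p.1)) (GG π e p.1) p.2 := ⟨_, fun _ _ => rfl⟩
  have F01 : ∀ e p ξ, 0 ≤ F e p ξ ∧ F e p ξ ≤ 1 := fun e p ξ => hF e p ▸ FF01 _ _ _ _ _
  have Fl : ∀ e p ξ ξ' s, (∀ i, |ξ i - ξ' i| ≤ s) → 0 ≤ s →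
      |F e p ξ - F e p ξ'| ≤ 20 * 2 ^ c * s :=
    fun e p => hF e p ▸ FF_lip hM col _ π e p.1 p.2
  obtain ⟨U, hU⟩ : ∃ U : Fin (M + 1) → Fin c → (Fin c → E) → Finset X, ∀ g m e, U g m e =
      (univ.filter fun p : (Fin c → Fin (M + 1)) × Fin c => p.1 m = g).biUnion
        fun p => (jun (F e p)).image fun il => il.2 m := ⟨_, fun _ _ _ => rfl⟩
  have Uc : ∀ g m e, (U g m e).card ≤ K := fun g m e => by
    rw [hU, hK]
    refine card_biUnion_le.trans ((sum_le_card_nsmul _ _ d fun p _ =>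
      card_image_le.trans (hcard _ (F01 e p) (Fl e p))).trans ?_)
    rw [smul_eq_mul]
    exact Nat.mul_le_mul_right _ (card_le_univ _)
  obtain ⟨e, he⟩ := good_tuple lv rv π _ hval (U (Fin.last M)) (U 0) K (by
      rw [mul_one_div, ← mul_div_assoc, div_lt_one (by positivity)]; linarith)
    (Uc _) (Uc _)
    (fun m e α β h => by
      rw [hU, hU]
      refine biUnion_congr rfl fun p hp => ?_
      have hp' := (mem_filter.1 hp).2
      rw [hF, hF, view_last hM lv rv e hp' h, GG_last hM π e hp' α β])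
    (fun m e α β h => by
      rw [hU, hU]
      refine biUnion_congr rfl fun p hp => ?_
      have hp' := (mem_filter.1 hp).2
      rw [hF, hF, view_zero lv rv e hp' h, GG_zero π e hp' α β])
  obtain ⟨τ, τ1, τ0⟩ := tau_exists (Y := Fin c → X)
    fun m y => ∃ a ∈ U (Fin.last M) m e, π (e m) a = y m
  obtain ⟨ω, hω⟩ := pick_omega
    (fun q : ((Fin c → Fin (M + 1)) × Fin c) × (Fin (c + 1) → Bool) => pt π e τ q.1.1 q.2)
    (fun q => fl_inv _ _) (fun q ω => F e q.1 (xi v ω) - Φ (F e q.1) ω)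
    (fun q => hE _ (F01 e q.1) (Fl e q.1))
  refine ⟨e, topo hMd v hv lv rv π e col τ ω fun k a α α' hα F1 => ?_⟩
  have hΦe : Φ (F e (k, a)) (pt π e τ k α ω) = Φ (F e (k, a)) (pt π e τ k α' ω) := by
    refine hΦ _ (F01 e _) (Fl e _) _ _ fun il hil j => ?_
    have memU : ∀ m, il.2 m ∈ U (k m) m e := fun m => by
      rw [hU]
      exact mem_biUnion.2 ⟨(k, a), mem_filter.2 ⟨mem_univ _, rfl⟩, mem_image_of_mem _ hil⟩
    simp only [pt, fl]
    rcases hα (τ (yy π e (I0 k) il.2)) with ⟨h, m, hk⟩ | ⟨m, h, hk⟩ | h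
    · refine absurd ⟨_, hk ▸ memU m, ?_⟩ (τ0 _ h m)
      have : M ≤ 2 * M := by omega
      simp [yy, I0, hk, this]
    · obtain ⟨b, hb, hb'⟩ := τ1 _ m h
      refine absurd ?_ (he m b hb)
      have : yy π e (I0 k) il.2 m = il.2 m := by simp [yy, I0, hk, hM.ne']
      rw [hb', this]
      exact hk ▸ memU m
    · simp only [h]
  have a1 := hω ((k, a), α)
  have a2 := hω ((k, a), α')
  have := hF e (k, a)
  simp only at a1 a2 this
  rw [← this] at F1 ⊢
  rw [F1, hΦe, abs_lt] at a1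
  rw [abs_lt] at a2
  linarith [a1.2, a2.1]

end

end Vale.Agent.P342
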