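import Vale.Agent.P342.Defs
import Vale.Agent.P342.Sound
import Vale.Agent.Lib.PCP.Main

/-! The reduction from label cover to approximate colouring. -/

namespace Vale.Agent.P342

open Finset Vale.Agent.Lib.PCP Vale.Agent.Lib.TM

noncomputable section

section Table

variable {P : Type}

def table (V : List P) (rel : P → P → Bool) : List (List Bool) := V.map fun p => V.map (rel p)

lemma table_length (V : List P) (rel : P → P → Bool) : (table V rel).length = V.length := by
  simp [table]

lemma table_entry (V : List P) (rel : P → P → Bool) {u v : ℕ} (hu : u < V.length)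
    (hv : v < V.length) : ((table V rel).getD u []).getD v false = rel V[u] V[v] := by
  simp [table, List.getD, hu, hv]

lemma table_colorable (V : List P) (rel : P → P → Bool) {c : ℕ} (f : P → Fin c)
    (hf : ∀ p ∈ V, ∀ p' ∈ V, rel p p' = true → f p ≠ f p') :
    (toGraph (table V rel)).Colorable c := by
  refine ⟨SimpleGraph.Coloring.mk (fun u => f (V[u.1]'(table_length V rel ▸ u.2))) ?_⟩
  intro u v h
  have hu : u.1 < V.length := table_length V rel ▸ u.2
  have hv : v.1 < V.length := table_length V rel ▸ v.2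
  rcases ((SimpleGraph.fromRel_adj _ _ _).1 h).2 with h | h
  · rw [table_entry V rel hu hv] at h
    exact hf _ (List.getElem_mem _) _ (List.getElem_mem _) h
  · rw [table_entry V rel hv hu] at h
    exact (hf _ (List.getElem_mem _) _ (List.getElem_mem _) h).symm

lemma of_table_colorable (V : List P) (rel : P → P → Bool) {c : ℕ} (hc : 0 < c)
    (h : (toGraph (table V rel)).Colorable c) :
    ∃ f : P → Fin c, ∀ p ∈ V, ∀ p' ∈ V, p ≠ p' → rel p p' = true → f p ≠ f p' := by
  obtain ⟨C⟩ := h
  have : ∀ p : P, ∃ a : Fin c, p ∈ V → ∃ u : Fin (table V rel).length,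
      V[u.1]'(table_length V rel ▸ u.2) = p ∧ C u = a := by
    intro p
    by_cases hp : p ∈ V
    · obtain ⟨n, hn, e⟩ := List.getElem_of_mem hp
      exact ⟨C ⟨n, (table_length V rel).symm ▸ hn⟩, fun _ => ⟨⟨n, _⟩, e, rfl⟩⟩
    · exact ⟨⟨0, hc⟩, fun h => absurd h hp⟩
  choose f hf using this
  refine ⟨f, fun p hp p' hp' hne hr => ?_⟩
  obtain ⟨u, hu, hu'⟩ := hf p hp
  obtain ⟨v, hv, hv'⟩ := hf p' hp'
  rw [← hu', ← hv']
  refine C.valid ((SimpleGraph.fromRel_adj _ _ _).2 ⟨?_, Or.inl ?_⟩)
  · rintro rfl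
    exact hne (hu.symm.trans hv)
  · rw [table_entry V rel (table_length V rel ▸ u.2) (table_length V rel ▸ v.2), hu, hv, hr]

end Table

section CTs

variable {α β S : Type} [Enc α] [Enc β]

lemma ct_mapConst (l : List S) (f : S → α → β) (h : ∀ s, CT 0 (f s)) :
    CT 0 fun a => l.map fun s => f s a := by
  induction l with
  | nil => exact CT.const []
  | cons s l ih => exact (h s).cons ih

lemma ct_forall [Fintype S] (p : S → α → Prop) [∀ s a, Decidable (p s a)]
    [∀ a, Decidable (∀ s, p s a)]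
    (h : ∀ s, CT 0 fun a => decide (p s a)) : CT 0 fun a => decide (∀ s, p s a) :=
  (CT.all (f := fun _ b => b) (by fun_prop)
    (ct_mapConst (univ : Finset S).toList _ h)).of_eq fun a => by
      rw [Bool.eq_iff_iff]; simp

lemma ct_exists [Fintype S] (p : S → α → Prop) [∀ s a, Decidable (p s a)]
    [∀ a, Decidable (∃ s, p s a)]
    (h : ∀ s, CT 0 fun a => decide (p s a)) : CT 0 fun a => decide (∃ s, p s a) :=
  (CT.any (f := fun _ b => b) (by fun_prop)
    (ct_mapConst (univ : Finset S).toList _ h)).of_eq fun a => by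
      rw [Bool.eq_iff_iff]; simp

lemma ct_lookup [Fintype S] [DecidableEq S] (f : α → S) (g : S → Prop) [DecidablePred g]
    (h : ∀ s, CT 0 fun a => decide (f a = s)) : CT 0 fun a => decide (g (f a)) :=
  (ct_exists (fun s a => f a = s ∧ g s) fun s =>
    ((h s).and (CT.const (decide (g s)))).of_eq fun a => by simp).of_eq fun a => by simp

def tuples (l : List β) : ℕ → List (List β)
  | 0 => [[]]
  | r + 1 => l.flatMap fun a => (tuples l r).map (a :: ·)

omit [Enc β] in
lemma mem_tuples {l : List β} {r : ℕ} {t : List β} :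
    t ∈ tuples l r ↔ t.length = r ∧ ∀ a ∈ t, a ∈ l := by
  induction r generalizing t with
  | zero => cases t <;> simp [tuples]
  | succ r ih =>
    cases t with
    | nil => simp [tuples]
    | cons b t =>
      simp only [tuples, List.mem_flatMap, List.mem_map, List.cons.injEq, ih, List.length_cons,
        List.mem_cons, forall_eq_or_imp, Nat.add_right_cancel_iff]
      constructor
      · rintro ⟨a, ha, t', ⟨h1, h2⟩, rfl, rfl⟩
        exact ⟨h1, ha, h2⟩
      · rintro ⟨h1, ha, h2⟩
        exact ⟨b, ha, t, ⟨h1, h2⟩, rfl, rfl⟩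

lemma ct_tuples {l : α → List β} (hl : CT 0 l) (r : ℕ) : CT 0 fun a => tuples (l a) r := by
  induction r with
  | zero => exact CT.const _
  | succ r ih =>
    exact CT.flatMap (f := fun a b => (tuples (l a) r).map (b :: ·))
      (CT.map (f := fun (p : α × β) (t : List β) => p.2 :: t) (by fun_prop)
        (ih.comp (CT.fst CT.id))) hl

end CTs

abbrev Ed := ℕ × ℕ × List ℕ

variable (L R r : ℕ)

def tf (t : List Ed) : Fin r → Ed := fun i => t.getD i (0, 0, [])

def pr (e : Ed) (a : Fin (L + R + 1)) : Fin (L + R + 1) :=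
  ⟨e.2.2.getD (a % L) 0 % (L + R + 1), Nat.mod_lt _ (Nat.succ_pos _)⟩

abbrev Sh := (Fin r → Bool) × ((Fin r → Fin (L + R + 1)) → Fin 3)

def vw (t : List Ed) (J : Fin r → Bool) : Fin r → Bool × ℕ :=
  view (fun e : Ed => e.1) (fun e => e.2.1) (tf r t) J

def ok (π : Fin r → Fin (L + R + 1) → Fin (L + R + 1)) (s s' : Sh L R r) : Prop :=
  ∀ x, s.2 (prj π id s.1 x) ≠ s'.2 (prj π id s'.1 x)

open Classical in
def adj (G : LC) (p p' : List Ed × Sh L R r) : Bool :=
  (tuples G.2.2 r).any fun e => decide (vw r e p.2.1 = vw r p.1 p.2.1) &&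
    decide (vw r e p'.2.1 = vw r p'.1 p'.2.1) &&
    decide (ok L R r (fun i => pr L R (tf r e i)) p.2 p'.2)

def verts (G : LC) : List (List Ed × Sh L R r) :=
  (tuples G.2.2 r).flatMap fun t => (univ : Finset (Sh L R r)).toList.map fun s => (t, s)

def red (G : LC) : List (List Bool) := table (verts L R r G) (adj L R r G)

open Classical in
lemma ct_vw {α : Type} [Enc α] {t t' : α → List Ed} (ht : CT 0 t) (ht' : CT 0 t')
    (J : Fin r → Bool) : CT 0 fun a => decide (vw r (t a) J = vw r (t' a) J) := by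
  refine (ct_forall (fun i a => vw r (t a) J i = vw r (t' a) J i) fun i => ?_).of_eq fun a => by
    simp [funext_iff]
  cases h : J i
  · refine (CT.beqNat (m := fun a => ((t a).getD i (0, 0, [])).2.1)
      (n := fun a => ((t' a).getD i (0, 0, [])).2.1) (by fun_prop) (by fun_prop)).of_eq fun a => ?_
    rw [Bool.eq_iff_iff]
    simp [vw, view, tf, h]
  · refine (CT.beqNat (m := fun a => ((t a).getD i (0, 0, [])).1)
      (n := fun a => ((t' a).getD i (0, 0, [])).1) (by fun_prop) (by fun_prop)).of_eq fun a => ?_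
    rw [Bool.eq_iff_iff]
    simp [vw, view, tf, h]

open Classical in
lemma ct_ok {α : Type} [Enc α] {t : α → List Ed} (ht : CT 0 t) (s s' : Sh L R r) :
    CT 0 fun a => decide (ok L R r (fun i => pr L R (tf r (t a) i)) s s') := by
  refine ct_lookup (fun a i => pr L R (tf r (t a) i)) (fun π => ok L R r π s s') fun π => ?_
  refine (ct_forall (fun (z : Fin r × Fin (L + R + 1)) a =>
    pr L R (tf r (t a) z.1) z.2 = π z.1 z.2) fun z => ?_).of_eq fun a => by
      simp [funext_iff]
  refine (CT.beqNat (m := fun a => ((t a).getD z.1 (0, 0, [])).2.2.getD (z.2 % L) 0 % (L + R + 1))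
    (n := fun _ => (π z.1 z.2 : ℕ)) (by fun_prop) (by fun_prop)).of_eq fun a => ?_
  rw [Bool.eq_iff_iff]
  simp [pr, tf, Fin.ext_iff]

open Classical in
lemma ct_adj (s s' : Sh L R r) :
    CT 0 fun p : (LC × List Ed) × List Ed => adj L R r p.1.1 (p.1.2, s) (p.2, s') :=
  CT.any (f := fun (p : (LC × List Ed) × List Ed) (e : List Ed) =>
      decide (vw r e s.1 = vw r p.1.2 s.1) && decide (vw r e s'.1 = vw r p.2 s'.1) &&
      decide (ok L R r (fun i => pr L R (tf r e i)) s s'))
    (((ct_vw r (t := fun q : ((LC × List Ed) × List Ed) × List Ed => q.2) (t' := fun q => q.1.1.2)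
      (by fun_prop) (by fun_prop) _).and
    (ct_vw r (t := fun q : ((LC × List Ed) × List Ed) × List Ed => q.2) (t' := fun q => q.1.2)
      (by fun_prop) (by fun_prop) _)).and
    (ct_ok L R r (t := fun q : ((LC × List Ed) × List Ed) × List Ed => q.2) (by fun_prop) _ _))
    (ct_tuples (l := fun p : (LC × List Ed) × List Ed => p.1.1.2.2) (by fun_prop) r)

lemma ct_red : CT 0 (red L R r) := by
  have e : red L R r = fun G => (tuples G.2.2 r).flatMap fun t =>
      (univ : Finset (Sh L R r)).toList.map fun s => (tuples G.2.2 r).flatMap fun t' =>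
        (univ : Finset (Sh L R r)).toList.map fun s' => adj L R r G (t, s) (t', s') := by
    funext G
    simp [red, table, verts, List.map_flatMap, Function.comp_def]
  rw [e]
  refine CT.flatMap (f := fun G t => (univ : Finset (Sh L R r)).toList.map fun s =>
    (tuples G.2.2 r).flatMap fun t' =>
      (univ : Finset (Sh L R r)).toList.map fun s' => adj L R r G (t, s) (t', s'))
    (ct_mapConst _ (fun s (p : LC × List Ed) => (tuples p.1.2.2 r).flatMap fun t' =>
      (univ : Finset (Sh L R r)).toList.map fun s' => adj L R r p.1 (p.2, s) (t', s'))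
      fun s => ?_) (ct_tuples (l := fun G : LC => G.2.2) (by fun_prop) r)
  exact CT.flatMap (f := fun (p : LC × List Ed) t' =>
      (univ : Finset (Sh L R r)).toList.map fun s' => adj L R r p.1 (p.2, s) (t', s'))
    (ct_mapConst _ (fun s' (p : (LC × List Ed) × List Ed) => adj L R r p.1.1 (p.1.2, s) (p.2, s'))
      fun s' => ct_adj L R r s s') (ct_tuples (l := fun p : LC × List Ed => p.1.2.2) (by fun_prop) r)

lemma mem_verts {G : LC} {p : List Ed × Sh L R r} :
    p ∈ verts L R r G ↔ p.1 ∈ tuples G.2.2 r := by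
  obtain ⟨t, s⟩ := p
  simp [verts]

lemma complete {G : LC} (h : G.Perfect L R) : (toGraph (red L R r G)).Colorable 3 := by
  obtain ⟨A, B, hA, hB, h⟩ := h
  refine table_colorable _ _ (fun p => p.2.2 fun i => Fin.ofNat _
    (if (vw r p.1 p.2.1 i).1 = true then A (vw r p.1 p.2.1 i).2 else B (vw r p.1 p.2.1 i).2))
    fun p _ p' _ ha => ?_
  simp only [adj, List.any_eq_true, Bool.and_eq_true, decide_eq_true_eq] at ha
  obtain ⟨e, he, ⟨h1, h2⟩, h3⟩ := ha
  rw [← h1, ← h2]
  have key : ∀ J : Fin r → Bool, (fun i => Fin.ofNat (L + R + 1)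
      (if (vw r e J i).1 = true then A (vw r e J i).2 else B (vw r e J i).2)) =
      prj (fun i => pr L R (tf r e i)) id J fun i => Fin.ofNat _ (A (tf r e i).1) := by
    intro J
    funext i
    have hm : tf r e i ∈ G.2.2 := by
      rw [mem_tuples] at he
      refine he.2 _ ?_
      unfold tf
      rw [List.getD_eq_getElem _ _ (he.1.symm ▸ i.2)]
      exact List.getElem_mem _
    cases hJ : J i
    · have a1 := hA (tf r e i).1
      ext
      simp only [vw, view, prj, pr, hJ, Bool.false_eq_true, if_false, Fin.val_ofNat, id]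
      rw [Nat.mod_eq_of_lt (show A (tf r e i).1 < L + R + 1 by omega), Nat.mod_eq_of_lt a1,
        h _ hm]
    · simp [vw, view, prj, hJ]
  rw [key, key]
  exact h3 _

lemma card_filter_get {β : Type} (l : List β) (p : β → Bool) :
    (univ.filter fun j : Fin l.length => p l[j.1] = true).card = l.countP p := by
  rw [card_filter, Fin.sum_univ_fun_getElem l (fun b => if p b = true then 1 else 0)]
  induction l with
  | nil => rfl
  | cons b l ih => rw [List.map_cons, List.sum_cons, ih, List.countP_cons, add_comm]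

theorem soundness (c : ℕ) (hc : 0 < c) : ∃ ε : ℝ, 0 < ε ∧ ∀ (L R : ℕ) (G : LC), 0 < L →
    G.WF L R → G.ValLe L ε → ¬ (toGraph (red L R c G)).Colorable c := by
  obtain ⟨ε, hε, hs⟩ := sound c
  refine ⟨ε, hε, fun L R G hL hW hV hcol => ?_⟩
  obtain ⟨f, hf⟩ := of_table_colorable _ _ hc hcol
  have : Nonempty (Fin G.2.2.length) := ⟨⟨0, List.length_pos_iff.2 hW.1⟩⟩
  have rep : ∀ (w : Fin c → Bool × ℕ), ∃ t : List Ed, ∀ t' ∈ tuples G.2.2 c, ∀ J,
      vw c t' J = w → t ∈ tuples G.2.2 c ∧ vw c t J = w := by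
    intro w
    by_cases h : ∃ t' ∈ tuples G.2.2 c, ∃ J, vw c t' J = w
    · obtain ⟨t, ht, J, hJ⟩ := h
      refine ⟨t, fun t' _ J' hJ' => ⟨ht, ?_⟩⟩
      have : J' = J := funext fun i => congrArg Prod.fst (congrFun (hJ'.trans hJ.symm) i)
      rw [this, hJ]
    · exact ⟨[], fun t' ht' J hJ => absurd ⟨t', ht', J, hJ⟩ h⟩
  choose rep hrep using rep
  obtain ⟨e, J, J', χ, χ', h1, h2⟩ := hs (Fin (L + R + 1)) (Fin G.2.2.length)
    (fun j => G.2.2[j.1].1) (fun j => G.2.2[j.1].2.1) (fun j => pr L R G.2.2[j.1])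
    (fun A B => by
      rw [Fintype.card_fin]
      refine le_trans ?_ (hV (fun u => A u % L) (fun v => B v) fun u => Nat.mod_lt _ hL)
      unfold LC.good
      rw [← card_filter_get]
      refine Nat.cast_le.2 (card_le_card fun j hj => ?_)
      have a := congrArg Fin.val (mem_filter.1 hj).2
      obtain ⟨-, -, w1, w2⟩ := hW.2 _ (List.getElem_mem j.2)
      have b : G.2.2[j.1].2.2.getD (A G.2.2[j.1].1 % L) 0 < R := by
        rw [List.getD_eq_getElem _ _ (w1.symm ▸ Nat.mod_lt _ hL)]
        exact w2 _ (List.getElem_mem _)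
      simp only [pr] at a
      rw [Nat.mod_eq_of_lt (by omega)] at a
      exact mem_filter.2 ⟨mem_univ _, beq_iff_eq.2 a⟩)
    (fun w χ => f (rep w, fun i => (w i).1, χ))
  have te : tf c (List.ofFn fun i => G.2.2[(e i).1]) = fun i => G.2.2[(e i).1] := by
    funext i
    simp [tf]
  have tm : (List.ofFn fun i => G.2.2[(e i).1]) ∈ tuples G.2.2 c := by
    rw [mem_tuples]
    refine ⟨List.length_ofFn, fun a ha => ?_⟩
    obtain ⟨i, rfl⟩ := (List.mem_ofFn' _ _).1 ha
    exact List.getElem_mem _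
  have ve : ∀ J, vw c (List.ofFn fun i => G.2.2[(e i).1]) J =
      view (fun j : Fin G.2.2.length => G.2.2[j.1].1) (fun j => G.2.2[j.1].2.1) e J := fun J => by
    unfold vw; rw [te]; rfl
  obtain ⟨m1, v1⟩ := hrep _ _ tm J (ve J)
  obtain ⟨m2, v2⟩ := hrep _ _ tm J' (ve J')
  refine hf (_, J, χ) ((mem_verts L R c).2 m1) (_, J', χ') ((mem_verts L R c).2 m2) ?_ ?_ h2
  · intro h
    simp only [Prod.mk.injEq] at h
    obtain ⟨-, rfl, rfl⟩ := h
    exact h1 default rfl
  · simp only [adj, List.any_eq_true, Bool.and_eq_true, decide_eq_true_eq]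
    refine ⟨_, tm, ⟨(ve J).trans v1.symm, (ve J').trans v2.symm⟩, ?_⟩
    rw [te]
    exact h1

theorem hardness (c : ℕ) (hc : 0 < c) : ∃ red : CNF3 → List (List Bool), PolyTime red ∧ ∀ φ,
    (Sat φ → (toGraph (red φ)).Colorable 3) ∧ (¬ Sat φ → ¬ (toGraph (red φ)).Colorable c) := by
  obtain ⟨ε, hε, hs⟩ := soundness c hc
  obtain ⟨L, R, dU, dV, lc, hL, -, -, hct, h⟩ := labelCover_hard hε
  refine ⟨fun φ => red L R c (lc φ), ((ct_red L R c).comp hct).polyTime, fun φ => ?_⟩
  obtain ⟨h1, -, h3, h4⟩ := h φ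
  exact ⟨fun hφ => complete L R c (h3 hφ), fun hφ => hs L R _ hL h1 (h4 hφ)⟩

end

end Vale.Agent.P342
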